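import Vale.Agent.P134.M4.Defs

/-! PLN: planes formula with Gaussians.  Interface statements (note of 16:14, helper97). -/

open MeasureTheory Filter Topology

namespace Vale.Agent.P134.PLN

open Vale.Agent.P134 Vale.Agent.P134.SM Vale.Agent.P134.M4
open Vale.Agent.P134.H891 (Psi)

/-- The Gaussian `exp(-|x|²/r²)`. -/
noncomputable def ga {n : ℕ} (r : ℝ) (x : Fin n → ℝ) : ℝ := Real.exp (-(esq x) / r ^ 2)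

/-- `G_r(t) = ∫_0^t exp(-y²/r²) dy`. -/
noncomputable def Gr (r t : ℝ) : ℝ := ∫ y in (0:ℝ)..t, Real.exp (-y ^ 2 / r ^ 2)

/-- `v(p) = ∫ Ψ(u(x)) exp(-|x-p|²/r²) dx`. -/
noncomputable def vP {n : ℕ} (u : (Fin n → ℝ) → ℝ) (r : ℝ) (p : Fin n → ℝ) : ℝ :=
  ∫ x, Psi (u x) * ga r (x - p)

/-- `H(p) = ∫ |∇u|² exp(-|x|²/r²) G_r(p·ν) dx`. -/
noncomputable def HP {n : ℕ} (u : (Fin n → ℝ) → ℝ) (r : ℝ) (p : Fin n → ℝ) : ℝ :=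
  ∫ x, gs u x * ga r x * Gr r (tau p u x)

/-- PLN-T: translation identity. -/
def StT : Prop := ∀ n : ℕ, ∃ C : ℝ, 0 < C ∧ ∀ u : (Fin n → ℝ) → ℝ, Sol u → (∀ x, 0 < gs u x) →
  ∀ r : ℝ, 0 < r → ∀ (p : Fin n → ℝ) (k : Fin n),
  |(∫ x, gs u x * nu u k x * ga r (x - p))
      - ∫ x, gs u x * nu u k x * (ga r x * Real.exp (-(tau p u x) ^ 2 / r ^ 2))|
    ≤ C * Real.exp (esq p / r ^ 2) *
      ((eno p + esq p / r) * (∫ x, gs u x * √(dn u x) * ga (2 * r) x)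
        + eno p / r ^ 2 * ∫ x, wn u x * |rd u x| * ga (2 * r) x)

/-- PLN-P: the planes formula for the potential. -/
def StP : Prop := ∀ n : ℕ, ∃ C : ℝ, 0 < C ∧ ∀ u : (Fin n → ℝ) → ℝ, Sol u → (∀ x, 0 < gs u x) →
  ∀ r : ℝ, 0 < r → ∀ p : Fin n → ℝ,
  |vP u r p - vP u r 0 - HP u r p|
    ≤ C * eno p * Real.exp (esq p / r ^ 2) *
      ((eno p + esq p / r) * (∫ x, gs u x * √(dn u x) * ga (2 * r) x)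
        + eno p / r ^ 2 * (∫ x, wn u x * |rd u x| * ga (2 * r) x)
        + ∫ x, defi u x * ga (2 * r) x)

/-- PLN-GW: from balls to Gaussian weights. -/
def StGW : Prop := ∀ (n k : ℕ) (g : (Fin n → ℝ) → ℝ), Continuous g → (∀ x, 0 ≤ g x) →
  (∀ ε : ℝ, 0 < ε → ∀ᶠ R : ℝ in atTop, ∫ x in bl R, g x ≤ ε * R ^ k) →
  ∀ ε : ℝ, 0 < ε → ∀ᶠ R : ℝ in atTop,
    Integrable (fun x => g x * ga R x) ∧ ∫ x, g x * ga R x ≤ ε * R ^ k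

/-- PLN-D: the deficit is small. -/
def StDs : Prop := ∀ u : (Fin 4 → ℝ) → ℝ, Sol u → E3 u → ST u →
  ∀ ε : ℝ, 0 < ε → ∀ᶠ R : ℝ in atTop, ∫ x in bl R, defi u x ≤ ε * R ^ 3

/-- PLN-N: asymptotic planes formula. -/
def StN : Prop := ∀ u : (Fin 4 → ℝ) → ℝ, Sol u → (∀ x, 0 < gs u x) → E3 u → S0 u → ST u → K1 u →
  ∀ κ : ℝ, 0 < κ → ∀ M : ℝ, 0 < M → ∀ δ : ℝ, 0 < δ → ∀ᶠ R : ℝ in atTop,
    ∀ p : Fin 4 → ℝ, esq p ≤ (M * R) ^ 2 →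
      |vP u (κ * R) p - vP u (κ * R) 0 - HP u (κ * R) p| ≤ δ * R ^ 4

/-- PLN-F: Gaussian flux bound. -/
def StF1 : Prop := ∀ u : (Fin 4 → ℝ) → ℝ, Mo u → ∀ r : ℝ, 0 < r →
  Integrable (fun x => gs u x * ga r x) ∧
    ∫ x, gs u x * ga r x ≤ √2 * Real.pi ^ 2 * Psi 1 * r ^ 3

/-- PLN-H: `H` is odd and satisfies the three-point inequality. -/
def StH : Prop := ∀ u : (Fin 4 → ℝ) → ℝ, Mo u → ∀ r : ℝ, 0 < r →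
  (∀ p, HP u r (-p) = - HP u r p) ∧
  ∀ p q, |HP u r p + HP u r q - HP u r (p + q)| ≤ 13 / 10 * Psi 1 * (Real.pi ^ 2 * r ^ 4)

/-- PLN-V: elementary properties of `v`. -/
def StV : Prop := ∀ u : (Fin 4 → ℝ) → ℝ, Sol u → ∀ r : ℝ, 0 < r →
  Continuous (vP u r) ∧ ∀ p, 0 ≤ vP u r p ∧ vP u r p ≤ Psi 1 * (Real.pi ^ 2 * r ^ 4)

/-- PLN-L: `L¹` closeness of `Ψ(u)` and its Gaussian average. -/
def StL : Prop := ∀ u : (Fin 4 → ℝ) → ℝ, Sol u → E3' u → ∀ M : ℝ, 0 < M →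
  ∃ C : ℝ, ∀ κ : ℝ, 0 < κ → κ ≤ 1 → ∀ᶠ R : ℝ in atTop,
    ∫ x in bl (M * R), |Psi (u x) - vP u (κ * R) x / (Real.pi ^ 2 * (κ * R) ^ 4)| ≤ C * κ * R ^ 4

/-- PLN-W: `Ψ(u)` is close to `{0, Ψ(1)}` in `L¹`. -/
def StW : Prop := ∀ u : (Fin 4 → ℝ) → ℝ, Sol u → E3 u → ∃ C : ℝ, ∀ R : ℝ, 1 ≤ R →
  ∫ x in bl R, Psi (u x) * (Psi 1 - Psi (u x)) ≤ C * R ^ 3

/-- PLN-ETA: both phases have positive density. -/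
def StEta : Prop := ∀ u : (Fin 4 → ℝ) → ℝ, Mo u → ∃ η : ℝ, 0 < η ∧ ∀ᶠ R : ℝ in atTop,
  η * R ^ 4 ≤ (∫ x in bl R, Psi (u x)) ∧ η * R ^ 4 ≤ ∫ x in bl R, (Psi 1 - Psi (u x))

open Classical in
/-- PLN-END (helper922): pure analysis. -/
def StEnd : Prop := ∀ (n : ℕ) (σ η ε : ℝ), 0 < σ → 0 < η → 0 < ε →
  ∃ t : ℝ, 0 < t ∧ t ≤ 1 ∧ ∃ δ : ℝ, 0 < δ ∧
  ∀ (ψ v H : (Fin n → ℝ) → ℝ) (c : ℝ), Measurable ψ → (∀ x, 0 ≤ ψ x) → (∀ x, ψ x ≤ 1) →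
    Continuous v → (∀ x, 0 ≤ v x) → (∀ x, v x ≤ 1) → (∀ x, H (-x) = - H x) →
    (∀ x q, |H x + H q - H (x + q)| ≤ 3 / 2 - σ) →
    (∀ p, ∑ i, p i ^ 2 ≤ 16 → |v p - c - H p| ≤ δ) →
    (∫ x in {x : Fin n → ℝ | ∑ i, x i ^ 2 ≤ 4 ^ 2}, ψ x * (1 - ψ x)) ≤ δ →
    (∫ x in {x : Fin n → ℝ | ∑ i, x i ^ 2 ≤ 4 ^ 2}, |ψ x - v x|) ≤ δ →
    η ≤ (∫ x in {x : Fin n → ℝ | ∑ i, x i ^ 2 ≤ 1 ^ 2}, ψ x) →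
    η ≤ (∫ x in {x : Fin n → ℝ | ∑ i, x i ^ 2 ≤ 1 ^ 2}, (1 - ψ x)) →
    ∃ a : Fin n → ℝ, ∑ i, a i ^ 2 = 1 ∧
      ∫ x in {x : Fin n → ℝ | ∑ i, x i ^ 2 ≤ t ^ 2},
        |ψ x - if 0 < ∑ i, a i * x i then (1:ℝ) else 0| ≤ ε * t ^ n

/-- PLN-OUT2. -/
def StOut2 : Prop := ∀ u : (Fin 4 → ℝ) → ℝ, Mo u → E3' u → S0 u → ST u → K1 u → OUT2 u

/-- PLN-OUT1. -/
def StOut1 : Prop := ∀ u : (Fin 4 → ℝ) → ℝ, Mo u → E3' u → S0 u → OUT2 u → OUT1 u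

end Vale.Agent.P134.PLN
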