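import Vale.Agent.P134.PLN.Defs
import Vale.Agent.P134.H239.M4Out

/-! PLN-D (helper646): the deficit is small; from the D-estimates of `H239/M4Out.lean`. -/

open MeasureTheory Filter Topology

namespace Vale.Agent.P134.PLN

open Vale.Agent.P134 Vale.Agent.P134.SM Vale.Agent.P134.M4

/-- If `1 - u²` vanishes identically, the deficit does too. -/
lemma defi_zero_of_psi {n : ℕ} {u : (Fin n → ℝ) → ℝ} (hu : Sol u) (h : ∀ x, psi u x = 0)
    (x : Fin n → ℝ) : defi u x = 0 := by
  have h1 := hu.defi_nonneg x
  have h2 : defi u x ≤ 0 := by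
    have h3 : 0 ≤ ∑ i, pd i u x ^ 2 := Finset.sum_nonneg fun _ _ => sq_nonneg _
    unfold defi
    rw [h x]
    linarith
  exact le_antisymm h2 h1

theorem D : StDs := by
  intro u hu hE hST ε hε
  rcases hu.psi_dichotomy with h | h
  · have h0 := defi_zero_of_psi hu h
    filter_upwards [eventually_ge_atTop (1:ℝ)] with R hR1
    simp only [h0, integral_zero]
    positivity
  · have hlt : ∀ x, |u x| < 1 := fun x => by
      have := h x
      unfold psi at this
      exact (sq_lt_one_iff_abs_lt_one _).mp (by linarith)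
    have h4 := (H239.d_estimates hu hlt hE hST).2.2.2.1 ε hε
    filter_upwards [h4, eventually_ge_atTop (1:ℝ)] with R hR hR1
    refine hR.trans (mul_le_mul_of_nonneg_left ?_ hε.le)
    exact pow_le_pow_right₀ hR1 (by norm_num)

end Vale.Agent.P134.PLN
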