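import Vale.Agent.P134.PLN.Defs
import Vale.Agent.P134.H688.Ift
import Mathlib.Analysis.SpecialFunctions.Gaussian.GaussianIntegral

set_option linter.all false

/-! PLN-F: the Gaussian flux bound. -/

open MeasureTheory Filter Topology

namespace Vale.Agent.P134.PLN

namespace FF

open Vale.Agent.P134 Vale.Agent.P134.SM Vale.Agent.P134.M4
open Vale.Agent.P134.H688 (gn Ps gn_nonneg gn_sq continuous_gn hasCompactSupport_gn)
open Vale.Agent.P134.H891 (Psi ph mm pp pp_of_nonneg ph_nonneg ph_le_one mm_nonneg mm_le_one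
  ph_contDiff ph_hasCompactSupport pd_ph pd_esq contDiff_esq)

variable {n : ℕ} {u F : (Fin n → ℝ) → ℝ} {x : Fin n → ℝ} {r L : ℝ} {i j k : Fin n}

/-! ### Gaussian moments -/

lemma ga_pos (r : ℝ) (x : Fin n → ℝ) : 0 < ga r x := Real.exp_pos _

lemma ga_prod (r : ℝ) :
    (ga r : (Fin n → ℝ) → ℝ) = fun x => ∏ i, Real.exp (-(1 / r ^ 2) * x i ^ 2) := by
  funext x
  unfold ga esq
  rw [← Real.exp_sum, ← Finset.mul_sum]
  congr 1
  ring

lemma integrable_ga (n : ℕ) {r : ℝ} (hr : 0 < r) : Integrable (ga r : (Fin n → ℝ) → ℝ) := by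
  rw [ga_prod]
  exact Integrable.fintype_prod (f := fun _ : Fin n => fun t : ℝ => Real.exp (-(1 / r ^ 2) * t ^ 2))
    (fun i => integrable_exp_neg_mul_sq (by positivity))

lemma integral_ga (hr : 0 < r) : ∫ x : Fin 4 → ℝ, ga r x = Real.pi ^ 2 * r ^ 4 := by
  rw [ga_prod]
  rw [integral_fintype_prod_volume_eq_prod
    (fun _ : Fin 4 => fun t : ℝ => Real.exp (-(1 / r ^ 2) * t ^ 2))]
  simp_rw [integral_gaussian]
  rw [Finset.prod_const, Finset.card_univ, Fintype.card_fin]
  have h : √(Real.pi / (1 / r ^ 2)) ^ 4 = (√(Real.pi / (1 / r ^ 2)) ^ 2) ^ 2 := by ring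
  rw [h, Real.sq_sqrt (by positivity)]
  field_simp

lemma ga_contDiff (r : ℝ) : ContDiff ℝ 1 (ga r : (Fin n → ℝ) → ℝ) := by
  unfold ga
  exact (contDiff_esq.neg.div_const _).exp

lemma ga_continuous (r : ℝ) : Continuous (ga r : (Fin n → ℝ) → ℝ) := (ga_contDiff r).continuous

lemma pd_ga (r : ℝ) (i : Fin n) (x : Fin n → ℝ) :
    pd i (ga r) x = -(2 * x i / r ^ 2 * ga r x) := by
  have d : DifferentiableAt ℝ (esq : (Fin n → ℝ) → ℝ) x :=
    contDiff_esq.differentiable (by norm_num) x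
  have e : (ga r : (Fin n → ℝ) → ℝ) = fun y => (fun t : ℝ => Real.exp (-t / r ^ 2)) (esq y) := rfl
  have h : HasDerivAt (fun t : ℝ => Real.exp (-t / r ^ 2))
      (Real.exp (-(esq x) / r ^ 2) * (-1 / r ^ 2)) (esq x) :=
    (((hasDerivAt_id (esq x)).neg).div_const (r ^ 2)).exp
  rw [show pd i (ga r) x = pd i (fun y => (fun t : ℝ => Real.exp (-t / r ^ 2)) (esq y)) x from rfl,
    pd_comp h.differentiableAt d, h.deriv, pd_esq]
  unfold ga
  ring

lemma exp_aux (t : ℝ) : t * Real.exp (-t) ≤ 2 * Real.exp (-t / 2) := by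
  have h := Real.add_one_le_exp (t / 2)
  have e : Real.exp (-t / 2) = Real.exp (t / 2) * Real.exp (-t) := by
    rw [← Real.exp_add]; congr 1; ring
  rw [e]
  nlinarith [Real.exp_pos (-t)]

/-- `|x|² ga` is dominated by a wider Gaussian. -/
lemma esq_mul_ga_le (hr : 0 < r) (x : Fin n → ℝ) :
    esq x * ga r x ≤ 2 * r ^ 2 * ga (√2 * r) x := by
  have h := exp_aux (esq x / r ^ 2)
  have h2 : (√2 * r) ^ 2 = 2 * r ^ 2 := by rw [mul_pow, Real.sq_sqrt (by norm_num)]
  unfold ga
  rw [h2]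
  have e1 : -esq x / r ^ 2 = -(esq x / r ^ 2) := by ring
  have e2 : -esq x / (2 * r ^ 2) = -(esq x / r ^ 2) / 2 := by ring
  rw [e1, e2]
  have h3 : esq x = r ^ 2 * (esq x / r ^ 2) := by field_simp
  calc esq x * Real.exp (-(esq x / r ^ 2))
      = r ^ 2 * (esq x / r ^ 2 * Real.exp (-(esq x / r ^ 2))) := by
        conv_lhs => rw [h3]
        rw [mul_assoc, ← h3]
    _ ≤ r ^ 2 * (2 * Real.exp (-(esq x / r ^ 2) / 2)) :=
        mul_le_mul_of_nonneg_left h (by positivity)
    _ = _ := by ring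

lemma integrable_esq_ga (n : ℕ) (hr : 0 < r) :
    Integrable (fun x : Fin n → ℝ => esq x * ga r x) := by
  refine ((integrable_ga n (r := √2 * r) (by positivity)).const_mul (2 * r ^ 2)).mono'
    (continuous_esq.mul (ga_continuous r)).aestronglyMeasurable
    (Eventually.of_forall fun x => ?_)
  rw [Real.norm_eq_abs, abs_of_nonneg (mul_nonneg (esq_nonneg x) (ga_pos r x).le)]
  exact esq_mul_ga_le hr x

lemma integrable_eno_ga (n : ℕ) (hr : 0 < r) :
    Integrable (fun x : Fin n → ℝ => eno x * ga r x) := by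
  refine ((integrable_ga n hr).add (integrable_esq_ga n hr)).mono'
    (continuous_eno.mul (ga_continuous r)).aestronglyMeasurable
    (Eventually.of_forall fun x => ?_)
  rw [Real.norm_eq_abs, abs_of_nonneg (mul_nonneg (eno_nonneg x) (ga_pos r x).le)]
  simp only [Pi.add_apply]
  have h1 := eno_sq x
  nlinarith [ga_pos r x, sq_nonneg (eno x - 1), sq_nonneg (eno x),
    mul_nonneg (sq_nonneg (eno x - 1)) (ga_pos r x).le]

lemma integrable_sq_ga (n : ℕ) (hr : 0 < r) (k : Fin n) :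
    Integrable (fun x : Fin n → ℝ => x k ^ 2 * ga r x) := by
  refine (integrable_esq_ga n hr).mono'
    (((continuous_apply k).pow 2).mul (ga_continuous r)).aestronglyMeasurable
    (Eventually.of_forall fun x => ?_)
  rw [Real.norm_eq_abs, abs_of_nonneg (mul_nonneg (sq_nonneg _) (ga_pos r x).le)]
  exact mul_le_mul_of_nonneg_right
    (Finset.single_le_sum (f := fun i => x i ^ 2) (fun i _ => sq_nonneg _) (Finset.mem_univ k))
    (ga_pos r x).le

/-- second moment in one coordinate -/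
lemma integral_sq_ga (hr : 0 < r) (k : Fin n) :
    ∫ x : Fin n → ℝ, x k ^ 2 * ga r x = r ^ 2 / 2 * ∫ x : Fin n → ℝ, ga r x := by
  have dk : Differentiable ℝ (fun x : Fin n → ℝ => x k) := by fun_prop
  have pk : ∀ x : Fin n → ℝ, fderiv ℝ (fun x : Fin n → ℝ => x k) x (Pi.single k 1) = 1 := by
    intro x
    have : pd k (fun x : Fin n → ℝ => x k) x = 1 := by rw [pd_coord, if_pos rfl]
    exact this
  have pg : ∀ x : Fin n → ℝ, fderiv ℝ (ga r : (Fin n → ℝ) → ℝ) x (Pi.single k 1)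
      = -(2 * x k / r ^ 2 * ga r x) := fun x => pd_ga r k x
  have i1 : Integrable (fun x : Fin n → ℝ =>
      fderiv ℝ (fun x : Fin n → ℝ => x k) x (Pi.single k 1) * ga r x) := by
    simp_rw [pk, one_mul]; exact integrable_ga n hr
  have e2 : (fun x : Fin n → ℝ => x k * fderiv ℝ (ga r : (Fin n → ℝ) → ℝ) x (Pi.single k 1))
      = fun x => -(2 / r ^ 2) * (x k ^ 2 * ga r x) := by
    funext x; rw [pg]; ring
  have i2 : Integrable (fun x : Fin n → ℝ =>
      x k * fderiv ℝ (ga r : (Fin n → ℝ) → ℝ) x (Pi.single k 1)) := by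
    rw [e2]; exact (integrable_sq_ga n hr k).const_mul _
  have i3 : Integrable (fun x : Fin n → ℝ => x k * ga r x) := by
    refine (integrable_eno_ga n hr).mono'
      ((continuous_apply k).mul (ga_continuous r)).aestronglyMeasurable
      (Eventually.of_forall fun x => ?_)
    rw [norm_mul, Real.norm_eq_abs (ga r x), abs_of_pos (ga_pos r x)]
    exact mul_le_mul_of_nonneg_right ((norm_le_pi_norm x k).trans (norm_le_eno x)) (ga_pos r x).le
  have key := integral_mul_fderiv_eq_neg_fderiv_mul_of_integrable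
    (μ := (volume : Measure (Fin n → ℝ))) (f := fun x : Fin n → ℝ => x k) (g := ga r)
    (v := Pi.single k 1) i1 i2 i3 (fun x _ => dk x)
    (fun x _ => (ga_contDiff r).differentiable (by norm_num) x)
  simp_rw [pk, one_mul] at key
  rw [e2, integral_const_mul] at key
  have hr2 : r ^ 2 ≠ 0 := by positivity
  field_simp at key ⊢
  linarith

lemma integral_esq_ga (hr : 0 < r) :
    ∫ x : Fin 4 → ℝ, esq x * ga r x = 2 * r ^ 2 * (Real.pi ^ 2 * r ^ 4) := by
  have e : (fun x : Fin 4 → ℝ => esq x * ga r x) = fun x => ∑ k, x k ^ 2 * ga r x := by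
    funext x; unfold esq; rw [Finset.sum_mul]
  rw [e, integral_finsetSum _ fun k _ => integrable_sq_ga 4 hr k]
  simp_rw [integral_sq_ga hr, integral_ga hr]
  rw [Finset.sum_const, Finset.card_univ, Fintype.card_fin, nsmul_eq_mul]
  push_cast
  ring

lemma integral_eno_ga_le (hr : 0 < r) :
    ∫ x : Fin 4 → ℝ, eno x * ga r x ≤ √2 * Real.pi ^ 2 * r ^ 5 := by
  have hs : (0:ℝ) < √2 := Real.sqrt_pos.mpr (by norm_num)
  have hs2 : (√2 : ℝ) ^ 2 = 2 := Real.sq_sqrt (by norm_num)
  have i1 := (integrable_esq_ga 4 hr).const_mul (1 / (2 * (√2 * r)))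
  have i2 := (integrable_ga 4 hr).const_mul (√2 * r / 2)
  have h : ∫ x : Fin 4 → ℝ, eno x * ga r x
      ≤ ∫ x : Fin 4 → ℝ, (1 / (2 * (√2 * r)) * (esq x * ga r x) + √2 * r / 2 * ga r x) := by
    apply integral_mono (integrable_eno_ga 4 hr) (i1.add i2)
    intro x
    simp only [Pi.add_apply]
    have h1 := eno_sq x
    have h3 : eno x ≤ 1 / (2 * (√2 * r)) * esq x + √2 * r / 2 := by
      rw [← h1]
      have h4 : 1 / (2 * (√2 * r)) * eno x ^ 2 + √2 * r / 2 - eno x
          = (eno x - √2 * r) ^ 2 / (2 * (√2 * r)) := by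
        field_simp
        ring
      have h5 : 0 ≤ (eno x - √2 * r) ^ 2 / (2 * (√2 * r)) := by positivity
      linarith
    calc eno x * ga r x ≤ (1 / (2 * (√2 * r)) * esq x + √2 * r / 2) * ga r x :=
          mul_le_mul_of_nonneg_right h3 (ga_pos r x).le
      _ = _ := by ring
  rw [integral_add i1 i2, integral_const_mul, integral_const_mul, integral_esq_ga hr,
    integral_ga hr] at h
  refine h.trans (le_of_eq ?_)
  field_simp
  nlinarith [hs2]

/-! ### The cut-off Gaussian -/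

lemma ph_tendsto (x : Fin n → ℝ) : Tendsto (fun L : ℝ => ph L x) atTop (𝓝 1) := by
  have h1 : Tendsto (fun L : ℝ => 1 - esq x / L ^ 2) atTop (𝓝 1) := by
    have h2 : Tendsto (fun L : ℝ => esq x / L ^ 2) atTop (𝓝 0) :=
      tendsto_const_nhds.div_atTop (tendsto_pow_atTop (by norm_num))
    simpa using h2.const_sub 1
  have h3 : Tendsto (fun L : ℝ => pp (1 - esq x / L ^ 2) ^ 2) atTop (𝓝 (pp 1 ^ 2)) :=
    ((H891.continuous_pp.tendsto 1).comp h1).pow 2
  have e : pp (1:ℝ) ^ 2 = 1 := by rw [pp_of_nonneg zero_le_one]; norm_num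
  rw [e] at h3
  exact h3

/-- the test function -/
noncomputable def fi (r L : ℝ) (x : Fin n → ℝ) : ℝ := ga r x * ph L x

lemma fi_contDiff (r L : ℝ) : ContDiff ℝ 1 (fi r L : (Fin n → ℝ) → ℝ) :=
  (ga_contDiff r).mul (ph_contDiff L)

lemma fi_hcs (r : ℝ) (hL : 0 < L) : HasCompactSupport (fi r L : (Fin n → ℝ) → ℝ) :=
  (ph_hasCompactSupport hL).mul_left

lemma fi_nonneg (r L : ℝ) (x : Fin n → ℝ) : 0 ≤ fi r L x :=
  mul_nonneg (ga_pos _ _).le (ph_nonneg _ _)

lemma gn_fi_le (hr : 0 < r) (hL : 0 < L) (x : Fin n → ℝ) :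
    gn (fi r L) x ≤ (4 / L ^ 2 + 2 / r ^ 2) * (eno x * ga r x) := by
  have dg : DifferentiableAt ℝ (ga r : (Fin n → ℝ) → ℝ) x :=
    (ga_contDiff r).differentiable (by norm_num) x
  have dp : DifferentiableAt ℝ (ph L : (Fin n → ℝ) → ℝ) x :=
    (ph_contDiff L).differentiable (by norm_num) x
  set c : ℝ := (4 * mm L x / L ^ 2 + 2 / r ^ 2 * ph L x) * ga r x with hc
  have hc0 : 0 ≤ c := by
    have h1 := mm_nonneg L x
    have h2 := ph_nonneg L x
    have h3 := ga_pos r x
    positivity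
  have hp : ∀ j, pd j (fi r L) x = -(c * x j) := by
    intro j
    show pd j (fun y => ga r y * ph L y) x = _
    rw [pd_mul dg dp, pd_ph, pd_ga, hc]
    ring
  have e : gn (fi r L) x = c * eno x := by
    have h : gn (fi r L) x ^ 2 = (c * eno x) ^ 2 := by
      rw [gn_sq, mul_pow, eno_sq]
      unfold esq
      rw [Finset.mul_sum]
      refine Finset.sum_congr rfl fun j _ => ?_
      rw [hp]; ring
    exact (pow_left_inj₀ (gn_nonneg _ _) (mul_nonneg hc0 (eno_nonneg x)) two_ne_zero).mp h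
  rw [e]
  have h1 : 4 * mm L x / L ^ 2 + 2 / r ^ 2 * ph L x ≤ 4 / L ^ 2 + 2 / r ^ 2 := by
    have h2 : 4 * mm L x / L ^ 2 ≤ 4 / L ^ 2 := by
      apply div_le_div_of_nonneg_right _ (by positivity)
      linarith [mm_le_one (r := L) x]
    have h3 : 2 / r ^ 2 * ph L x ≤ 2 / r ^ 2 := by
      have := ph_le_one L x
      calc 2 / r ^ 2 * ph L x ≤ 2 / r ^ 2 * 1 := mul_le_mul_of_nonneg_left this (by positivity)
        _ = _ := mul_one _
    linarith
  calc c * eno x ≤ ((4 / L ^ 2 + 2 / r ^ 2) * ga r x) * eno x :=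
        mul_le_mul_of_nonneg_right (mul_le_mul_of_nonneg_right h1 (ga_pos r x).le) (eno_nonneg x)
    _ = _ := by ring

lemma Ps_eq (t : ℝ) : Ps t = Psi t - 2 / (3 * √2) := by
  unfold Ps Psi
  have : (0:ℝ) < √2 := Real.sqrt_pos.mpr (by norm_num)
  field_simp
  ring

lemma gs_le_en {u : (Fin n → ℝ) → ℝ} (hu : Sol u) (x : Fin n → ℝ) : gs u x ≤ en u x := by
  have h := hu.modica x
  unfold gs en
  linarith

lemma gs_le_one {u : (Fin n → ℝ) → ℝ} (hu : Sol u) (x : Fin n → ℝ) : gs u x ≤ 1 := by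
  have h := hu.defi_nonneg x
  have h2 := hu.psi_sq_le x
  unfold defi at h
  unfold gs
  linarith

end FF

open Vale.Agent.P134 Vale.Agent.P134.SM Vale.Agent.P134.M4
open Vale.Agent.P134.H688 (gn Ps gn_nonneg gn_sq continuous_gn hasCompactSupport_gn)
open Vale.Agent.P134.H891 (Psi ph mm pp ph_nonneg ph_le_one ph_contDiff ph_hasCompactSupport
  Psi_nonneg Psi_le_Psi_one)

open FF in
/-- Cut-off version of the Gaussian flux bound. -/
lemma F_cut {u : (Fin 4 → ℝ) → ℝ} (h : Mo u) {r L : ℝ} (hr : 0 < r) (hL : 0 < L) :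
    ∫ x, gs u x * ga r x * ph L x
      ≤ (2 / L ^ 2 + 1 / r ^ 2) * (Psi 1 * (√2 * Real.pi ^ 2 * r ^ 5)) := by
  have hu : Sol u := h.toSol
  have hl : H688.Lim 3 u := ⟨h.top, h.bot⟩
  have cu : Continuous u := hu.c2.continuous
  have cen : Continuous (en u) := (en_contDiff hu.c2).continuous
  have cgs : Continuous (gs u) := by
    unfold gs
    exact continuous_finsetSum _ fun j _ => (contDiff_pd_one hu.c2).continuous.pow 2
  have cφ : ContDiff ℝ 1 (fi r L : (Fin 4 → ℝ) → ℝ) := fi_contDiff r L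
  have sφ : HasCompactSupport (fi r L : (Fin 4 → ℝ) → ℝ) := fi_hcs r hL
  have k1 := H688.flux hu h.pos hl cφ sφ (fi_nonneg r L) (ε := 1) (by norm_num)
  have k2 := H688.flux hu h.pos hl cφ sφ (fi_nonneg r L) (ε := -1) (by norm_num)
  have ig : ∀ c : ℝ, Integrable (fun x => gn (fi r L) x * |Ps c - Ps (u x)|) := fun c =>
    ((continuous_gn cφ).mul (continuous_const.sub
      (H688.continuous_Ps.comp cu)).abs).integrable_of_hasCompactSupport
      (hasCompactSupport_gn sφ).mul_right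
  have k3 : (∫ x, gn (fi r L) x * |Ps 1 - Ps (u x)|) + ∫ x, gn (fi r L) x * |Ps (-1) - Ps (u x)|
      = Psi 1 * ∫ x : Fin 4 → ℝ, gn (fi r L) x := by
    rw [← integral_add (ig 1) (ig (-1)), ← integral_const_mul]
    congr 1
    funext x
    have hb := hu.bd x
    have e1 : |Ps 1 - Ps (u x)| = Psi 1 - Psi (u x) := by
      rw [Ps_eq, Ps_eq, sub_sub_sub_cancel_right, abs_of_nonneg]
      linarith [Psi_le_Psi_one hb]
    have e2 : |Ps (-1) - Ps (u x)| = Psi (u x) := by
      rw [Ps_eq, Ps_eq, sub_sub_sub_cancel_right, H891.Psi_neg_one, zero_sub, abs_neg,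
        abs_of_nonneg (Psi_nonneg hb)]
    rw [e1, e2]; ring
  have hP : 0 ≤ Psi 1 := Psi_nonneg (by norm_num)
  have k4 : ∫ x : Fin 4 → ℝ, gn (fi r L) x
      ≤ (4 / L ^ 2 + 2 / r ^ 2) * (√2 * Real.pi ^ 2 * r ^ 5) := by
    have h1 : ∫ x : Fin 4 → ℝ, gn (fi r L) x
        ≤ ∫ x : Fin 4 → ℝ, (4 / L ^ 2 + 2 / r ^ 2) * (eno x * ga r x) :=
      integral_mono ((continuous_gn cφ).integrable_of_hasCompactSupport (hasCompactSupport_gn sφ))
        ((integrable_eno_ga 4 hr).const_mul _) (fun x => gn_fi_le hr hL x)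
    rw [integral_const_mul] at h1
    exact h1.trans (mul_le_mul_of_nonneg_left (integral_eno_ga_le hr) (by positivity))
  have k5 : ∫ x, gs u x * ga r x * ph L x ≤ ∫ x, fi r L x * en u x := by
    apply integral_mono
    · refine ((cgs.mul (ga_continuous r)).mul
        (ph_contDiff L).continuous).integrable_of_hasCompactSupport (ph_hasCompactSupport hL).mul_left
    · exact (cφ.continuous.mul cen).integrable_of_hasCompactSupport sφ.mul_right
    · intro x
      simp only
      have h1 := mul_le_mul_of_nonneg_right (gs_le_en hu x) (fi_nonneg r L x)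
      unfold fi at h1 ⊢
      linarith
  have k6 := mul_le_mul_of_nonneg_left k4 hP
  have e : (2 / L ^ 2 + 1 / r ^ 2) * (Psi 1 * (√2 * Real.pi ^ 2 * r ^ 5))
      = (Psi 1 * ((4 / L ^ 2 + 2 / r ^ 2) * (√2 * Real.pi ^ 2 * r ^ 5))) / 2 := by ring
  rw [e]
  linarith

open FF in
/-- **PLN-F**: the Gaussian flux bound. -/
theorem F1 : StF1 := by
  intro u h r hr
  have hu : Sol u := h.toSol
  have cgs : Continuous (gs u) := by
    unfold gs
    exact continuous_finsetSum _ fun j _ => (contDiff_pd_one hu.c2).continuous.pow 2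
  have gs0 : ∀ x, 0 ≤ gs u x := fun x => Finset.sum_nonneg fun _ _ => sq_nonneg _
  have hint : Integrable (fun x => gs u x * ga r x) := by
    refine (integrable_ga 4 hr).mono' (cgs.mul (ga_continuous r)).aestronglyMeasurable
      (Eventually.of_forall fun x => ?_)
    rw [Real.norm_eq_abs, abs_of_nonneg (mul_nonneg (gs0 x) (ga_pos r x).le)]
    calc gs u x * ga r x ≤ 1 * ga r x := mul_le_mul_of_nonneg_right (gs_le_one hu x) (ga_pos r x).le
      _ = ga r x := one_mul _
  refine ⟨hint, ?_⟩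
  have hlim : Tendsto (fun L : ℝ => ∫ x, gs u x * ga r x * ph L x) atTop
      (𝓝 (∫ x, gs u x * ga r x)) := by
    apply tendsto_integral_filter_of_dominated_convergence (fun x => gs u x * ga r x)
    · exact Eventually.of_forall fun L =>
        ((cgs.mul (ga_continuous r)).mul (ph_contDiff L).continuous).aestronglyMeasurable
    · refine Eventually.of_forall fun L => Eventually.of_forall fun x => ?_
      have h0 : 0 ≤ gs u x * ga r x := mul_nonneg (gs0 x) (ga_pos r x).le
      rw [Real.norm_eq_abs, abs_of_nonneg (mul_nonneg h0 (ph_nonneg _ _))]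
      calc gs u x * ga r x * ph L x ≤ gs u x * ga r x * 1 :=
            mul_le_mul_of_nonneg_left (ph_le_one L x) h0
        _ = _ := mul_one _
    · exact hint
    · refine Eventually.of_forall fun x => ?_
      simpa using (ph_tendsto x).const_mul (gs u x * ga r x)
  have hlim2 : Tendsto (fun L : ℝ => (2 / L ^ 2 + 1 / r ^ 2) * (Psi 1 * (√2 * Real.pi ^ 2 * r ^ 5)))
      atTop (𝓝 ((0 + 1 / r ^ 2) * (Psi 1 * (√2 * Real.pi ^ 2 * r ^ 5)))) := by
    apply Tendsto.mul_const
    apply Tendsto.add_const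
    exact tendsto_const_nhds.div_atTop (tendsto_pow_atTop (by norm_num))
  have hle := le_of_tendsto_of_tendsto hlim hlim2 (by
    filter_upwards [eventually_gt_atTop (0:ℝ)] with L hL using F_cut h hr hL)
  refine hle.trans (le_of_eq ?_)
  field_simp
  ring

end Vale.Agent.P134.PLN
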