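import Vale.Agent.P134.PLN.Defs

/-! PLN-GW: from balls to Gaussian weights (dyadic shells). -/

open MeasureTheory Filter Topology

namespace Vale.Agent.P134.PLN

open Vale.Agent.P134 Vale.Agent.P134.SM Vale.Agent.P134.M4

namespace GWx

variable {n : ℕ}

theorem mem_bl {R : ℝ} {x : Fin n → ℝ} : x ∈ bl R ↔ esq x ≤ R ^ 2 := Iff.rfl

theorem cont_esq : Continuous (esq : (Fin n → ℝ) → ℝ) := by
  unfold esq
  exact continuous_finsetSum _ fun i _ => (continuous_apply i).pow 2

theorem isClosed_bl (R : ℝ) : IsClosed (bl R : Set (Fin n → ℝ)) :=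
  isClosed_le (cont_esq (n := n)) continuous_const

theorem isCompact_bl (R : ℝ) : IsCompact (bl R : Set (Fin n → ℝ)) := by
  refine (isCompact_Icc (a := fun _ : Fin n => -|R|) (b := fun _ => |R|)).of_isClosed_subset
    (isClosed_bl R) ?_
  intro x hx
  rw [mem_bl] at hx
  have key : ∀ i, |x i| ≤ |R| := by
    intro i
    refine sq_le_sq.1 ((Finset.single_le_sum (f := fun i => x i ^ 2) (fun j _ => sq_nonneg _)
      (Finset.mem_univ i)).trans hx)
  exact ⟨fun i => (abs_le.1 (key i)).1, fun i => (abs_le.1 (key i)).2⟩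

/-- The weights. -/
noncomputable def cc (j : ℕ) : ℝ := Real.exp (1 - 4 ^ j / 4)

theorem cc_pos (j : ℕ) : 0 < cc j := Real.exp_pos _

theorem ga_le {R : ℝ} (hR : 0 < R) (x : Fin n → ℝ) : ∃ j : ℕ, x ∈ bl (2 ^ j * R) ∧ ga R x ≤ cc j := by
  classical
  obtain ⟨s, hs⟩ : ∃ s, s = esq x / R ^ 2 := ⟨_, rfl⟩
  have hR2 : 0 < R ^ 2 := by positivity
  have ex : ∃ j : ℕ, s ≤ 4 ^ j := by
    obtain ⟨j, hj⟩ := pow_unbounded_of_one_lt s (by norm_num : (1 : ℝ) < 4)
    exact ⟨j, hj.le⟩
  have hga : ga R x = Real.exp (-s) := by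
    unfold ga
    rw [hs, neg_div]
  have hs0 : 0 ≤ s := by
    rw [hs]
    unfold esq
    positivity
  refine ⟨Nat.find ex, ?_, ?_⟩
  · rw [mem_bl]
    have h := Nat.find_spec ex
    obtain ⟨j, hj⟩ : ∃ j, j = Nat.find ex := ⟨_, rfl⟩
    rw [← hj] at h ⊢
    rw [hs, div_le_iff₀ hR2] at h
    refine h.trans (le_of_eq ?_)
    rw [mul_pow, ← pow_mul, mul_comm j 2, pow_mul]
    norm_num
  · rw [hga]
    unfold cc
    rw [Real.exp_le_exp]
    rcases Nat.eq_zero_or_eq_succ_pred (Nat.find ex) with h0 | h0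
    · rw [h0]
      norm_num
      linarith
    · have h1 : ¬ s ≤ 4 ^ (Nat.find ex - 1) := Nat.find_min ex (by omega)
      push Not at h1
      have h2 : (4 : ℝ) ^ Nat.find ex = 4 * 4 ^ (Nat.find ex - 1) := by
        conv_lhs => rw [h0]
        rw [Nat.succ_eq_add_one, pow_succ, Nat.pred_eq_sub_one]
        ring
      rw [h2]
      linarith

theorem summable_cc (k : ℕ) : Summable fun j : ℕ => cc j * (2 ^ j) ^ k := by
  refine Summable.of_nonneg_of_le (fun j => by have := cc_pos j; positivity) (fun j => ?_)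
    ((summable_geometric_of_lt_one (by norm_num : (0 : ℝ) ≤ 1 / 2) (by norm_num)).mul_left
      (Real.exp 1 * ((k + 1).factorial * 4 ^ (k + 1))))
  have h1 := Real.pow_div_factorial_le_exp ((4 : ℝ) ^ j / 4) (by positivity) (k + 1)
  have hf : (0 : ℝ) < ((k + 1).factorial : ℝ) := by positivity
  have hy : (0 : ℝ) < (4 ^ j / 4) ^ (k + 1) := by positivity
  have h2 : Real.exp (-((4 : ℝ) ^ j / 4)) ≤ (k + 1).factorial / (4 ^ j / 4) ^ (k + 1) := by
    rw [Real.exp_neg, inv_le_comm₀ (Real.exp_pos _) (by positivity), inv_div]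
    exact h1
  have h3 : cc j = Real.exp 1 * Real.exp (-((4 : ℝ) ^ j / 4)) := by
    unfold cc
    rw [← Real.exp_add]
    congr 1
  rw [h3]
  have h4 : ((k + 1).factorial : ℝ) / (4 ^ j / 4) ^ (k + 1) * (2 ^ j) ^ k
      ≤ (k + 1).factorial * 4 ^ (k + 1) * (1 / 2) ^ j := by
    rw [div_pow, div_div_eq_mul_div, div_mul_eq_mul_div, div_le_iff₀ (by positivity)]
    have e1 : ((4 : ℝ) ^ j) ^ (k + 1) = (2 ^ j) ^ k * (2 ^ j) ^ k * (2 ^ j * 2 ^ j) := by
      have : (4 : ℝ) ^ j = 2 ^ j * 2 ^ j := by rw [← mul_pow]; norm_num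
      rw [this]
      ring
    rw [e1]
    have e2 : (1 / 2 : ℝ) ^ j * 2 ^ j = 1 := by rw [← mul_pow]; norm_num
    have e3 : ((k + 1).factorial : ℝ) * 4 ^ (k + 1) * (1 / 2) ^ j *
        ((2 ^ j) ^ k * (2 ^ j) ^ k * (2 ^ j * 2 ^ j)) =
        ((k + 1).factorial * 4 ^ (k + 1) * (2 ^ j) ^ k) * ((2 ^ j) ^ k * 2 ^ j) *
          ((1 / 2) ^ j * 2 ^ j) := by ring
    rw [e3, e2, mul_one]
    refine le_mul_of_one_le_right (by positivity) ?_
    have : (1 : ℝ) ≤ 2 ^ j := one_le_pow₀ (by norm_num)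
    exact one_le_mul_of_one_le_of_one_le (one_le_pow₀ this) this
  calc Real.exp 1 * Real.exp (-((4 : ℝ) ^ j / 4)) * (2 ^ j) ^ k
      = Real.exp 1 * (Real.exp (-((4 : ℝ) ^ j / 4)) * (2 ^ j) ^ k) := by ring
    _ ≤ Real.exp 1 * ((k + 1).factorial / (4 ^ j / 4) ^ (k + 1) * (2 ^ j) ^ k) := by gcongr
    _ ≤ Real.exp 1 * ((k + 1).factorial * 4 ^ (k + 1) * (1 / 2) ^ j) := by gcongr
    _ = _ := by ring

theorem main (k : ℕ) (g : (Fin n → ℝ) → ℝ) (hg : Continuous g) (hg0 : ∀ x, 0 ≤ g x) {e R : ℝ}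
    (hR : 0 < R) (he : 0 ≤ e)
    (h : ∀ j : ℕ, ∫ x in bl (2 ^ j * R), g x ≤ e * (2 ^ j * R) ^ k) :
    Integrable (fun x => g x * ga R x) ∧
      ∫ x, g x * ga R x ≤ (∑' j : ℕ, cc j * (2 ^ j) ^ k) * e * R ^ k := by
  have hcg : Continuous (fun x : Fin n → ℝ => ga R x) := by
    unfold ga
    exact Real.continuous_exp.comp (cont_esq.neg.div_const _)
  have hm : Continuous (fun x => g x * ga R x) := hg.mul hcg
  have hnn : ∀ x, 0 ≤ g x * ga R x := fun x => mul_nonneg (hg0 x) (Real.exp_pos _).le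
  have hint : ∀ j : ℕ, IntegrableOn g (bl (2 ^ j * R)) := fun j =>
    hg.continuousOn.integrableOn_compact (isCompact_bl _)
  have key : ∫⁻ x, ENNReal.ofReal (g x * ga R x) ≤
      ENNReal.ofReal ((∑' j : ℕ, cc j * (2 ^ j) ^ k) * e * R ^ k) := by
    calc ∫⁻ x, ENNReal.ofReal (g x * ga R x)
        ≤ ∫⁻ x, ∑' j : ℕ, ENNReal.ofReal (cc j) *
            (bl (2 ^ j * R)).indicator (fun x => ENNReal.ofReal (g x)) x := by
          refine lintegral_mono fun x => ?_
          obtain ⟨j, hj, hj'⟩ := ga_le hR x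
          refine le_trans ?_ (ENNReal.le_tsum j)
          rw [Set.indicator_of_mem hj, ← ENNReal.ofReal_mul (cc_pos j).le]
          refine ENNReal.ofReal_le_ofReal ?_
          rw [mul_comm]
          exact mul_le_mul_of_nonneg_right hj' (hg0 x)
      _ = ∑' j : ℕ, ENNReal.ofReal (cc j) * ∫⁻ x in bl (2 ^ j * R), ENNReal.ofReal (g x) := by
          rw [lintegral_tsum]
          · refine tsum_congr fun j => ?_
            rw [lintegral_const_mul _ ?_, lintegral_indicator (isClosed_bl _).measurableSet]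
            exact (ENNReal.measurable_ofReal.comp hg.measurable).indicator
              (isClosed_bl _).measurableSet
          · intro j
            exact (((ENNReal.measurable_ofReal.comp hg.measurable).indicator
              (isClosed_bl _).measurableSet).const_mul _).aemeasurable
      _ ≤ ∑' j : ℕ, ENNReal.ofReal (cc j * (2 ^ j) ^ k * (e * R ^ k)) := by
          refine ENNReal.tsum_le_tsum fun j => ?_
          rw [← ofReal_integral_eq_lintegral_ofReal (hint j) (Eventually.of_forall hg0),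
            ← ENNReal.ofReal_mul (cc_pos j).le]
          refine ENNReal.ofReal_le_ofReal ?_
          calc cc j * ∫ x in bl (2 ^ j * R), g x ≤ cc j * (e * (2 ^ j * R) ^ k) :=
                mul_le_mul_of_nonneg_left (h j) (cc_pos j).le
            _ = _ := by rw [mul_pow]; ring
      _ = ENNReal.ofReal (∑' j : ℕ, cc j * (2 ^ j) ^ k * (e * R ^ k)) := by
          rw [ENNReal.ofReal_tsum_of_nonneg]
          · intro j
            have := cc_pos j
            positivity
          · exact (summable_cc k).mul_right _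
      _ = _ := by
          rw [tsum_mul_right, mul_assoc]
  have hfin : ∫⁻ x, ENNReal.ofReal (g x * ga R x) < ⊤ := key.trans_lt ENNReal.ofReal_lt_top
  refine ⟨⟨hm.aestronglyMeasurable, ?_⟩, ?_⟩
  · rw [hasFiniteIntegral_iff_ofReal (Eventually.of_forall hnn)]
    exact hfin
  · rw [integral_eq_lintegral_of_nonneg_ae (Eventually.of_forall hnn) hm.aestronglyMeasurable]
    refine ENNReal.toReal_le_of_le_ofReal ?_ key
    have : 0 ≤ ∑' j : ℕ, cc j * (2 ^ j) ^ k := tsum_nonneg fun j => by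
      have := cc_pos j
      positivity
    positivity

end GWx

theorem GW : StGW := by
  intro n k g hg hg0 h ε hε
  obtain ⟨S, hS⟩ : ∃ S, S = ∑' j : ℕ, GWx.cc j * (2 ^ j) ^ k := ⟨_, rfl⟩
  have hS0 : 0 ≤ S := by
    rw [hS]
    refine tsum_nonneg fun j => ?_
    have := GWx.cc_pos j
    positivity
  obtain ⟨R0, hR0⟩ := eventually_atTop.1 (h (ε / (S + 1)) (by positivity))
  filter_upwards [eventually_ge_atTop R0, eventually_ge_atTop 1] with R h1 h2
  have hR : 0 < R := by linarith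
  obtain ⟨a, b⟩ := GWx.main k g hg hg0 (e := ε / (S + 1)) hR (by positivity) (fun j => by
    refine hR0 _ (h1.trans ?_)
    have : (1 : ℝ) ≤ 2 ^ j := one_le_pow₀ (by norm_num)
    nlinarith)
  refine ⟨a, b.trans ?_⟩
  rw [← hS]
  have : S * (ε / (S + 1)) ≤ ε := by
    rw [mul_div_assoc', div_le_iff₀ (by positivity)]
    nlinarith
  exact mul_le_mul_of_nonneg_right this (by positivity)

end Vale.Agent.P134.PLN
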