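import Vale.Agent.P134.PLN.Defs
import Mathlib.Analysis.SpecialFunctions.Gaussian.GaussianIntegral
import Mathlib.Analysis.Real.Pi.Bounds

/-! PLN-H: oddness of `H` and the three-point inequality (block PLN-H, helper177). -/

open MeasureTheory Filter Topology

namespace Vale.Agent.P134.PLN

open Vale.Agent.P134 Vale.Agent.P134.SM Vale.Agent.P134.M4
open Vale.Agent.P134.H891 (Psi)

namespace HH

variable {r : ℝ}

lemma cont_ker (r : ℝ) : Continuous fun y : ℝ => Real.exp (-y ^ 2 / r ^ 2) := by fun_prop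

lemma ii (r a b : ℝ) :
    IntervalIntegrable (fun y : ℝ => Real.exp (-y ^ 2 / r ^ 2)) volume a b :=
  (cont_ker r).intervalIntegrable _ _

lemma Gr_neg (r t : ℝ) : Gr r (-t) = - Gr r t := by
  unfold Gr
  have h := intervalIntegral.integral_comp_neg (a := 0) (b := t)
    (fun y : ℝ => Real.exp (-y ^ 2 / r ^ 2))
  simp only [neg_zero] at h
  rw [intervalIntegral.integral_symm, ← h]
  congr 1
  refine intervalIntegral.integral_congr fun y _ => ?_
  simp

lemma Gr_sub (r s t : ℝ) : Gr r t - Gr r s = ∫ y in s..t, Real.exp (-y ^ 2 / r ^ 2) := by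
  unfold Gr
  rw [intervalIntegral.integral_interval_sub_left (ii r _ _) (ii r _ _)]

lemma Gr_mono (r : ℝ) {s t : ℝ} (h : s ≤ t) : Gr r s ≤ Gr r t := by
  have h1 := Gr_sub r s t
  have h2 : 0 ≤ ∫ y in s..t, Real.exp (-y ^ 2 / r ^ 2) :=
    intervalIntegral.integral_nonneg h fun y _ => (Real.exp_pos _).le
  linarith

lemma Gr_zero (r : ℝ) : Gr r 0 = 0 := by simp [Gr]

lemma Gr_cont (r : ℝ) : Continuous (Gr r) := by
  unfold Gr
  exact intervalIntegral.continuous_primitive (fun a b => ii r a b) 0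

lemma Gr_le (hr : 0 < r) {t : ℝ} (ht : 0 ≤ t) : Gr r t ≤ √Real.pi * r / 2 := by
  have hg : Integrable (fun y : ℝ => Real.exp (-(1 / r ^ 2) * y ^ 2)) :=
    integrable_exp_neg_mul_sq (by positivity)
  have e : (fun y : ℝ => Real.exp (-y ^ 2 / r ^ 2)) = fun y : ℝ => Real.exp (-(1 / r ^ 2) * y ^ 2) := by
    funext y; congr 1; ring
  have h1 : ∫ y in Set.Ioi (0:ℝ), Real.exp (-(1 / r ^ 2) * y ^ 2) = √(Real.pi / (1 / r ^ 2)) / 2 :=
    integral_gaussian_Ioi _
  have h2 : √(Real.pi / (1 / r ^ 2)) = √Real.pi * r := by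
    rw [div_div_eq_mul_div, div_one, Real.sqrt_mul Real.pi_pos.le, Real.sqrt_sq hr.le]
  unfold Gr
  rw [e, intervalIntegral.integral_of_le ht]
  refine (setIntegral_mono_set hg.integrableOn (Eventually.of_forall fun y => (Real.exp_pos _).le)
    (Set.Ioc_subset_Ioi_self.eventuallyLE)).trans ?_
  rw [h1, h2]

lemma abs_Gr_le (hr : 0 < r) (t : ℝ) : |Gr r t| ≤ √Real.pi * r / 2 := by
  rcases le_total 0 t with h | h
  · rw [abs_of_nonneg (by have := Gr_mono r h; rwa [Gr_zero] at this)]
    exact Gr_le hr h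
  · have h1 := Gr_le hr (neg_nonneg.mpr h)
    rw [Gr_neg] at h1
    rw [abs_of_nonpos (by have := Gr_mono r h; rwa [Gr_zero] at this)]
    exact h1

lemma three (hr : 0 < r) (s t : ℝ) :
    |Gr r s + Gr r t - Gr r (s + t)| ≤ √Real.pi * r / 2 := by
  have hs := abs_le.mp (abs_Gr_le hr s)
  have ht := abs_le.mp (abs_Gr_le hr t)
  have hst := abs_le.mp (abs_Gr_le hr (s + t))
  have h0 := Gr_zero r
  rw [abs_le]
  rcases le_total 0 s with a | a <;> rcases le_total 0 t with b | b
  · have h1 := Gr_mono r a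
    have h2 := Gr_mono r b
    have h3 : Gr r s ≤ Gr r (s + t) := Gr_mono r (by linarith)
    constructor <;> linarith
  · have h1 := Gr_mono r a
    have h2 := Gr_mono r b
    have h3 : Gr r (s + t) ≤ Gr r s := Gr_mono r (by linarith)
    have h4 : Gr r t ≤ Gr r (s + t) := Gr_mono r (by linarith)
    constructor <;> linarith
  · have h1 := Gr_mono r a
    have h2 := Gr_mono r b
    have h3 : Gr r (s + t) ≤ Gr r t := Gr_mono r (by linarith)
    have h4 : Gr r s ≤ Gr r (s + t) := Gr_mono r (by linarith)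
    constructor <;> linarith
  · have h1 := Gr_mono r a
    have h2 := Gr_mono r b
    have h3 : Gr r (s + t) ≤ Gr r s := Gr_mono r (by linarith)
    constructor <;> linarith

variable {n : ℕ}

lemma tau_add (p q : Fin n → ℝ) (u : (Fin n → ℝ) → ℝ) (x : Fin n → ℝ) :
    tau (p + q) u x = tau p u x + tau q u x := by
  unfold tau dd
  rw [← add_div, ← Finset.sum_add_distrib]
  congr 1
  exact Finset.sum_congr rfl fun i _ => by simp only [Pi.add_apply]; ring

lemma tau_neg (p : Fin n → ℝ) (u : (Fin n → ℝ) → ℝ) (x : Fin n → ℝ) :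
    tau (-p) u x = - tau p u x := by
  unfold tau dd
  rw [← neg_div, ← Finset.sum_neg_distrib]
  congr 1
  exact Finset.sum_congr rfl fun i _ => by simp only [Pi.neg_apply]; ring

lemma tau_meas {u : (Fin n → ℝ) → ℝ} (hu : Sol u) (p : Fin n → ℝ) :
    Measurable fun x => tau p u x := by
  have hp : ∀ i, Measurable (pd i u) := fun i =>
    (continuous_pd (hu.c2.of_le (by norm_num))).measurable
  unfold tau dd wn gs
  refine Measurable.div ?_ ?_
  · exact Finset.measurable_sum _ fun i _ => (hp i).const_mul _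
  · exact (Finset.measurable_sum _ fun i _ => (hp i).pow_const 2).sqrt

lemma intg {u : (Fin n → ℝ) → ℝ} (hu : Sol u) (hr : 0 < r)
    (h : Integrable fun x => gs u x * ga r x) (p : Fin n → ℝ) :
    Integrable fun x => gs u x * ga r x * Gr r (tau p u x) := by
  refine Integrable.mul_bdd (c := √Real.pi * r / 2) h ?_ ?_
  · exact ((Gr_cont r).measurable.comp (tau_meas hu p)).aestronglyMeasurable
  · exact Eventually.of_forall fun x => by rw [Real.norm_eq_abs]; exact abs_Gr_le hr _

end HH

open HH in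
theorem H : StF1 → StH := by
  intro hF u hu r hr
  obtain ⟨hi, hb⟩ := hF u hu r hr
  refine ⟨fun p => ?_, fun p q => ?_⟩
  · unfold HP
    rw [← integral_neg]
    refine integral_congr_ae (Eventually.of_forall fun x => ?_)
    simp only [tau_neg, Gr_neg]
    ring
  · have h1 := intg hu.toSol hr hi p
    have h2 := intg hu.toSol hr hi q
    have h3 := intg hu.toSol hr hi (p + q)
    have e : HP u r p + HP u r q - HP u r (p + q) =
        ∫ x, gs u x * ga r x * (Gr r (tau p u x) + Gr r (tau q u x) - Gr r (tau p u x + tau q u x)) := by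
      unfold HP
      have e1 : ∫ x, (gs u x * ga r x * Gr r (tau p u x) + gs u x * ga r x * Gr r (tau q u x)
          - gs u x * ga r x * Gr r (tau (p + q) u x)) =
          (∫ x, (gs u x * ga r x * Gr r (tau p u x) + gs u x * ga r x * Gr r (tau q u x)))
          - ∫ x, gs u x * ga r x * Gr r (tau (p + q) u x) := integral_sub (h1.add h2) h3
      rw [← integral_add h1 h2, ← e1]
      refine integral_congr_ae (Eventually.of_forall fun x => ?_)
      simp only [tau_add]
      ring
    have hgs : ∀ x, 0 ≤ gs u x := fun x => Finset.sum_nonneg fun i _ => sq_nonneg _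
    have h4 : |∫ x, gs u x * ga r x * (Gr r (tau p u x) + Gr r (tau q u x)
        - Gr r (tau p u x + tau q u x))| ≤ ∫ x, gs u x * ga r x * (√Real.pi * r / 2) := by
      rw [← Real.norm_eq_abs]
      refine norm_integral_le_of_norm_le (hi.mul_const _) (Eventually.of_forall fun x => ?_)
      have h0 : 0 ≤ gs u x * ga r x := mul_nonneg (hgs x) (Real.exp_pos _).le
      rw [Real.norm_eq_abs, abs_mul, abs_of_nonneg h0]
      exact mul_le_mul_of_nonneg_left (three hr _ _) h0
    rw [e]
    refine h4.trans ?_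
    rw [integral_mul_const]
    have hP : 0 ≤ Psi 1 := by
      unfold Psi
      exact div_nonneg (by norm_num) (Real.sqrt_nonneg _)
    have h5 : (∫ x, gs u x * ga r x) * (√Real.pi * r / 2) ≤
        (√2 * Real.pi ^ 2 * Psi 1 * r ^ 3) * (√Real.pi * r / 2) :=
      mul_le_mul_of_nonneg_right hb (by positivity)
    refine h5.trans ?_
    have h6 : √2 * √Real.pi ≤ 13 / 5 := by
      rw [← Real.sqrt_mul (by norm_num)]
      refine Real.sqrt_le_iff.mpr ⟨by norm_num, ?_⟩
      have := Real.pi_lt_d2
      nlinarith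
    have h7 : 0 ≤ Psi 1 * (Real.pi ^ 2 * r ^ 4) := by positivity
    nlinarith [mul_le_mul_of_nonneg_right h6 h7]

end Vale.Agent.P134.PLN
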