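import Vale.Agent.P134.PLN.Defs
import Mathlib.Analysis.SpecialFunctions.Gaussian.GaussianIntegral

set_option linter.all false

/-! PLN-T: translation identity for `|∇u|² ν_k` against Gaussians. -/

open MeasureTheory Filter Topology

namespace Vale.Agent.P134.PLN

namespace TT

open Vale.Agent.P134 Vale.Agent.P134.SM Vale.Agent.P134.M4

variable {n : ℕ} {u F g : (Fin n → ℝ) → ℝ} {x p : Fin n → ℝ} {r s M : ℝ} {i j k : Fin n}

/-! ### Gaussians -/

lemma ga_pos (r : ℝ) (x : Fin n → ℝ) : 0 < ga r x := Real.exp_pos _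

lemma integrable_ga (n : ℕ) {r : ℝ} (hr : 0 < r) : Integrable (ga r : (Fin n → ℝ) → ℝ) := by
  have h1 : (ga r : (Fin n → ℝ) → ℝ) = fun x => ∏ i, Real.exp (-(1 / r ^ 2) * x i ^ 2) := by
    funext x
    unfold ga esq
    rw [← Real.exp_sum, ← Finset.mul_sum]
    congr 1
    ring
  rw [h1]
  exact Integrable.fintype_prod (f := fun _ : Fin n => fun t : ℝ => Real.exp (-(1 / r ^ 2) * t ^ 2))
    (fun i => integrable_exp_neg_mul_sq (by positivity))

lemma ga_continuous (r : ℝ) : Continuous (ga r : (Fin n → ℝ) → ℝ) := by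
  unfold ga
  exact Real.continuous_exp.comp (continuous_esq.neg.div_const _)

lemma integrable_of_le (hF : Continuous F) (hr : 0 < r) (hb : ∀ x, |F x| ≤ M * ga r x) :
    Integrable F :=
  ((integrable_ga n hr).const_mul M).mono' hF.aestronglyMeasurable
    (Eventually.of_forall fun x => by rw [Real.norm_eq_abs]; exact hb x)

lemma int_pd_zero' (hF : Differentiable ℝ F) (hi : Integrable F) (hi' : Integrable (pd k F)) :
    ∫ x, pd k F x = 0 := by
  have h := integral_mul_fderiv_eq_neg_fderiv_mul_of_integrable (μ := (volume : Measure (Fin n → ℝ)))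
    (f := fun _ : Fin n → ℝ => (1:ℝ)) (g := F) (v := Pi.single k 1)
    (by simp) (by simp only [one_mul]; exact hi') (by simpa using hi)
    (fun x _ => differentiableAt_const _) (fun x _ => hF x)
  simp only [one_mul] at h
  rw [show (∫ x, pd k F x) = ∫ x, fderiv ℝ F x (Pi.single k 1) from rfl, h]
  simp

/-! ### The tangential field -/

/-- Tangential part of `p`. -/
noncomputable def bf (p : Fin n → ℝ) (u : (Fin n → ℝ) → ℝ) (j : Fin n) (x : Fin n → ℝ) : ℝ :=
  p j - tau p u x * nu u j x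

/-- Bilinear form of `Dν`. -/
noncomputable def bil (u : (Fin n → ℝ) → ℝ) (v w : Fin n → ℝ) (x : Fin n → ℝ) : ℝ :=
  ∑ i, ∑ j, v i * w j * pd j (nu u i) x

lemma bil_le (u : (Fin n → ℝ) → ℝ) (v w x : Fin n → ℝ) :
    |bil u v w x| ≤ eno v * eno w * √(dn u x) := by
  have h1 : bil u v w x ^ 2 ≤ (esq v * esq w) * dn u x := by
    have h := Finset.sum_mul_sq_le_sq_mul_sq (Finset.univ ×ˢ Finset.univ : Finset (Fin n × Fin n))
      (fun q => v q.1 * w q.2) (fun q => pd q.2 (nu u q.1) x)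
    rw [Finset.sum_product, Finset.sum_product, Finset.sum_product] at h
    have e : ∑ a, ∑ b, (v a * w b) ^ 2 = esq v * esq w := by
      unfold esq
      rw [Finset.sum_mul_sum]
      refine Finset.sum_congr rfl fun a _ => Finset.sum_congr rfl fun b _ => by ring
    simp only at h
    rw [e] at h
    exact h
  apply abs_le_of_sq_le_sq _ (by
    have := eno_nonneg v; have := eno_nonneg w; positivity)
  rw [mul_pow, mul_pow, eno_sq, eno_sq, Real.sq_sqrt (dn_nonneg u x)]
  exact h1

lemma tau_eq (p : Fin n → ℝ) (u : (Fin n → ℝ) → ℝ) (x : Fin n → ℝ) :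
    tau p u x = ∑ i, p i * nu u i x := by
  unfold tau dd nu
  rw [Finset.sum_div]
  refine Finset.sum_congr rfl fun i _ => ?_
  ring

lemma sum_bf_nu (h : 0 < gs u x) : ∑ j, bf p u j x * nu u j x = 0 := by
  unfold bf
  have e : ∀ j, (p j - tau p u x * nu u j x) * nu u j x = p j * nu u j x - tau p u x * nu u j x ^ 2 := by
    intro j; ring
  rw [Finset.sum_congr rfl fun j _ => e j, Finset.sum_sub_distrib, ← Finset.mul_sum, sum_nu_sq h,
    ← tau_eq]
  ring

lemma sum_p_bf (h : 0 < gs u x) : ∑ j, p j * bf p u j x = esq p - tau p u x ^ 2 := by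
  unfold bf esq
  have e : ∀ j, p j * (p j - tau p u x * nu u j x) = p j ^ 2 - tau p u x * (p j * nu u j x) := by
    intro j; ring
  rw [Finset.sum_congr rfl fun j _ => e j, Finset.sum_sub_distrib, ← Finset.mul_sum, ← tau_eq]
  ring

lemma esq_bf (h : 0 < gs u x) : esq (fun j => bf p u j x) = esq p - tau p u x ^ 2 := by
  have h1 := sum_bf_nu (p := p) h
  have h2 := sum_p_bf (p := p) h
  have e : ∀ j, bf p u j x ^ 2 = p j * bf p u j x - tau p u x * (bf p u j x * nu u j x) := by
    intro j; unfold bf; ring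
  unfold esq at *
  rw [Finset.sum_congr rfl fun j _ => e j, Finset.sum_sub_distrib, ← Finset.mul_sum, h1, h2]
  ring

lemma eno_bf_le (h : 0 < gs u x) : eno (fun j => bf p u j x) ≤ eno p := by
  unfold eno
  apply Real.sqrt_le_sqrt
  rw [esq_bf h]
  nlinarith [sq_nonneg (tau p u x)]

lemma abs_tau_le (h : 0 < gs u x) : |tau p u x| ≤ eno p := by
  apply abs_le_of_sq_le_sq _ (eno_nonneg p)
  rw [eno_sq]
  have h1 := esq_bf (p := p) h
  have h2 := esq_nonneg (fun j => bf p u j x)
  linarith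

lemma abs_nu_le (h : 0 < gs u x) (k : Fin n) : |nu u k x| ≤ 1 := by
  apply abs_le_of_sq_le_sq _ (by norm_num)
  rw [one_pow, ← sum_nu_sq h]
  exact Finset.single_le_sum (f := fun i => nu u i x ^ 2) (fun i _ => sq_nonneg _)
    (Finset.mem_univ k)

lemma eno_nu (h : 0 < gs u x) : eno (fun j => nu u j x) = 1 := by
  unfold eno esq
  rw [sum_nu_sq h, Real.sqrt_one]

lemma abs_coord_le_eno (v : Fin n → ℝ) (k : Fin n) : |v k| ≤ eno v := by
  apply abs_le_of_sq_le_sq _ (eno_nonneg v)
  rw [eno_sq]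
  exact Finset.single_le_sum (f := fun i => v i ^ 2) (fun i _ => sq_nonneg _)
    (Finset.mem_univ k)

lemma abs_bf_le (h : 0 < gs u x) (j : Fin n) : |bf p u j x| ≤ eno p :=
  (abs_coord_le_eno (fun j => bf p u j x) j).trans (eno_bf_le h)

lemma abs_pd_nu_le (u : (Fin n → ℝ) → ℝ) (x : Fin n → ℝ) (i j : Fin n) :
    |pd j (nu u i) x| ≤ √(dn u x) := by
  apply abs_le_of_sq_le_sq _ (Real.sqrt_nonneg _)
  rw [Real.sq_sqrt (dn_nonneg u x)]
  unfold dn
  calc pd j (nu u i) x ^ 2 ≤ ∑ j, pd j (nu u i) x ^ 2 :=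
        Finset.single_le_sum (f := fun j => pd j (nu u i) x ^ 2) (fun i _ => sq_nonneg _)
          (Finset.mem_univ j)
    _ ≤ _ := Finset.single_le_sum (f := fun i => ∑ j, pd j (nu u i) x ^ 2)
          (fun i _ => Finset.sum_nonneg fun _ _ => sq_nonneg _) (Finset.mem_univ i)

/-- `gs √dn` is bounded. -/
lemma gs_dn_le (hu : Sol u) (h : 0 < gs u x) {C : ℝ} (hC0 : 0 ≤ C) (hC1 : ∀ x i, |pd i u x| ≤ C)
    (hC2 : ∀ x i j, |pd i (pd j u) x| ≤ C) :
    gs u x ≤ n * C ^ 2 ∧ gs u x * √(dn u x) ≤ (n * C ^ 2 + 1) * (n * C) := by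
  have h1 : gs u x ≤ n * C ^ 2 := by
    unfold gs
    have : ∀ i ∈ (Finset.univ : Finset (Fin n)), pd i u x ^ 2 ≤ C ^ 2 := by
      intro i _
      exact sq_le_sq' (by linarith [abs_le.mp (hC1 x i)]) (abs_le.mp (hC1 x i)).2
    refine (Finset.sum_le_sum this).trans (le_of_eq ?_)
    simp
  refine ⟨h1, ?_⟩
  have h2 : wn u x * √(dn u x) ≤ n * C := by
    have h3 := Sol.wn_sq_dn hu h
    have h4 : hs u x ≤ (n * C) ^ 2 := by
      unfold hs
      have : ∀ i ∈ (Finset.univ : Finset (Fin n)), ∑ j, pd i (pd j u) x ^ 2 ≤ n * C ^ 2 := by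
        intro i _
        have : ∀ j ∈ (Finset.univ : Finset (Fin n)), pd i (pd j u) x ^ 2 ≤ C ^ 2 := by
          intro j _
          exact sq_le_sq' (by linarith [abs_le.mp (hC2 x i j)]) (abs_le.mp (hC2 x i j)).2
        refine (Finset.sum_le_sum this).trans (le_of_eq ?_)
        simp
      refine (Finset.sum_le_sum this).trans (le_of_eq ?_)
      simp only [Finset.sum_const, Finset.card_univ, Fintype.card_fin, nsmul_eq_mul]
      ring
    have h5 : (wn u x * √(dn u x)) ^ 2 ≤ (n * C) ^ 2 := by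
      rw [mul_pow, Real.sq_sqrt (dn_nonneg u x), h3]
      have := gs_nonneg (wn u) x
      linarith
    exact abs_le_of_sq_le_sq' h5 (by positivity) |>.2
  have h6 : wn u x ≤ n * C ^ 2 + 1 := by
    have h7 := wn_sq u x
    have h8 := wn_nonneg u x
    nlinarith
  calc gs u x * √(dn u x) = wn u x * (wn u x * √(dn u x)) := by rw [← wn_sq]; ring
    _ ≤ (n * C ^ 2 + 1) * (n * C) := by
        have h8 := wn_nonneg u x
        have h9 := Real.sqrt_nonneg (dn u x)
        exact mul_le_mul h6 h2 (by positivity) (by positivity)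

/-! ### Derivatives -/

section smooth

variable (hu : Sol u) (hpos : ∀ x, 0 < gs u x)

include hu hpos

lemma nu_cd (i : Fin n) : ContDiff ℝ 1 (nu u i) := by
  rw [contDiff_iff_contDiffAt]
  intro x
  exact_mod_cast Sol.nu_cda hu (hpos x) i 1

lemma tau_cd (p : Fin n → ℝ) : ContDiff ℝ 1 (tau p u) := by
  have e : tau p u = fun x => ∑ i, p i * nu u i x := by funext x; exact tau_eq p u x
  rw [e]
  exact ContDiff.sum fun i _ => contDiff_const.mul (nu_cd hu hpos i)

lemma bf_cd (p : Fin n → ℝ) (j : Fin n) : ContDiff ℝ 1 (bf p u j) := by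
  unfold bf
  exact contDiff_const.sub ((tau_cd hu hpos p).mul (nu_cd hu hpos j))

lemma pd_tau (p : Fin n → ℝ) (j : Fin n) (x : Fin n → ℝ) :
    pd j (tau p u) x = ∑ l, p l * pd j (nu u l) x := by
  have e : tau p u = fun x => ∑ i, p i * nu u i x := by funext x; exact tau_eq p u x
  have hd : ∀ i, DifferentiableAt ℝ (nu u i) x := fun i =>
    (nu_cd hu hpos i).differentiable (by norm_num) x
  rw [e, pd_sum (F := fun i y => p i * nu u i y) Finset.univ (fun i _ => (hd i).const_mul _)]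
  refine Finset.sum_congr rfl fun i _ => ?_
  rw [pd_mul (f := fun _ => p i) (differentiableAt_const _) (hd i), pd_const]
  ring

lemma pd_bf (p : Fin n → ℝ) (i j : Fin n) (x : Fin n → ℝ) :
    pd j (bf p u i) x
      = -((∑ l, p l * pd j (nu u l) x) * nu u i x + tau p u x * pd j (nu u i) x) := by
  have hd : DifferentiableAt ℝ (nu u i) x := (nu_cd hu hpos i).differentiable (by norm_num) x
  have ht : DifferentiableAt ℝ (tau p u) x := (tau_cd hu hpos p).differentiable (by norm_num) x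
  have e : bf p u i = fun x => p i - tau p u x * nu u i x := rfl
  rw [e, pd_sub (differentiableAt_const _) (ht.fun_mul hd), pd_const, pd_mul ht hd, pd_tau hu hpos]
  ring

lemma gs_cd : ContDiff ℝ 1 (gs u) := by exact_mod_cast Sol.gs_nat hu 1

lemma wn_cd : ContDiff ℝ 1 (wn u) := by
  rw [contDiff_iff_contDiffAt]
  intro x
  exact_mod_cast Sol.wn_cda hu (hpos x) 1

/-- `Σ_j b_j ∂_j |∇u|² = 2|∇u|² (b·Dν ν)`. -/
lemma sum_bf_pd_gs (p : Fin n → ℝ) (x : Fin n → ℝ) :
    ∑ j, pd j (gs u) x * bf p u j x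
      = 2 * gs u x * bil u (fun j => bf p u j x) (fun j => nu u j x) x := by
  have h := hpos x
  have hw := wn_pos h
  have h1 : ∀ j, pd j (gs u) x * bf p u j x
      = 2 * gs u x * (bf p u j x * nd u (nu u j) x)
        + 2 * wn u x * nd u (wn u) x * (bf p u j x * nu u j x) := by
    intro j
    have h2 : pd j (gs u) x = 2 * wn u x * pd j (wn u) x := by
      have e : gs u =ᶠ[𝓝 x] fun y => wn u y ^ 2 := Eventually.of_forall fun y => (wn_sq u y).symm
      rw [pd_congr e, pd_sq ((wn_cd hu hpos).differentiable (by norm_num) x)]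
    have h3 := Sol.nd_nu hu h j
    rw [eq_div_iff hw.ne'] at h3
    have h4 : pd j (wn u) x = tg u (wn u) j x + nu u j x * nd u (wn u) x := by unfold tg; ring
    have h5 := wn_sq u x
    rw [h2, h4, ← h3, ← h5]; ring
  rw [Finset.sum_congr rfl fun j _ => h1 j, Finset.sum_add_distrib, ← Finset.mul_sum,
    ← Finset.mul_sum, sum_bf_nu h, mul_zero, add_zero]
  congr 1
  unfold bil nd
  refine Finset.sum_congr rfl fun j _ => ?_
  rw [Finset.mul_sum]
  refine Finset.sum_congr rfl fun i _ => ?_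
  ring

/-- The field `|∇u|² ν_k b`. -/
lemma div_A (p : Fin n → ℝ) (k : Fin n) (x : Fin n → ℝ) :
    |∑ j, pd j (fun y => gs u y * nu u k y * bf p u j y) x|
      ≤ (n + 4) * eno p * (gs u x * √(dn u x)) := by
  have h := hpos x
  have dg : DifferentiableAt ℝ (gs u) x := (gs_cd hu hpos).differentiable (by norm_num) x
  have dν : ∀ i, DifferentiableAt ℝ (nu u i) x := fun i =>
    (nu_cd hu hpos i).differentiable (by norm_num) x
  have db : ∀ i, DifferentiableAt ℝ (bf p u i) x := fun i =>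
    (bf_cd hu hpos p i).differentiable (by norm_num) x
  have e : ∀ j, pd j (fun y => gs u y * nu u k y * bf p u j y) x
      = nu u k x * (pd j (gs u) x * bf p u j x)
        + gs u x * (∑ i, (Pi.single k 1 : Fin n → ℝ) i * bf p u j x * pd j (nu u i) x)
        - gs u x * nu u k x * (∑ l, p l * nu u j x * pd j (nu u l) x)
        - gs u x * nu u k x * tau p u x * pd j (nu u j) x := by
    intro j
    rw [pd_mul (f := fun y => gs u y * nu u k y) (dg.mul (dν k)) (db j), pd_mul dg (dν k),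
      pd_bf hu hpos]
    have e1 : ∑ i, (Pi.single k 1 : Fin n → ℝ) i * bf p u j x * pd j (nu u i) x
        = bf p u j x * pd j (nu u k) x := by
      rw [Finset.sum_eq_single k]
      · simp
      · intro b _ hb; simp [Pi.single_eq_of_ne hb]
      · intro hk; exact absurd (Finset.mem_univ k) hk
    have e2 : ∑ l, p l * nu u j x * pd j (nu u l) x = nu u j x * ∑ l, p l * pd j (nu u l) x := by
      rw [Finset.mul_sum]
      refine Finset.sum_congr rfl fun l _ => by ring
    rw [e1, e2]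
    ring
  have e' : ∑ j, pd j (fun y => gs u y * nu u k y * bf p u j y) x
      = nu u k x * (2 * gs u x * bil u (fun j => bf p u j x) (fun j => nu u j x) x)
        + gs u x * bil u (Pi.single k 1) (fun j => bf p u j x) x
        - gs u x * nu u k x * bil u p (fun j => nu u j x) x
        - gs u x * nu u k x * tau p u x * mc u x := by
    rw [Finset.sum_congr rfl fun j _ => e j, Finset.sum_sub_distrib, Finset.sum_sub_distrib,
      Finset.sum_add_distrib, ← Finset.mul_sum, ← Finset.mul_sum, ← Finset.mul_sum,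
      ← Finset.mul_sum, sum_bf_pd_gs hu hpos]
    unfold bil mc
    rw [Finset.sum_comm (f := fun j i => (Pi.single k 1 : Fin n → ℝ) i * bf p u j x
      * pd j (nu u i) x), Finset.sum_comm (f := fun j l => p l * nu u j x * pd j (nu u l) x)]
  rw [e']
  have hg := gs_nonneg u x
  have hs := Real.sqrt_nonneg (dn u x)
  have hp := eno_nonneg p
  have hν := abs_nu_le h k
  have b1 : |bil u (fun j => bf p u j x) (fun j => nu u j x) x| ≤ eno p * √(dn u x) := by
    refine (bil_le _ _ _ _).trans ?_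
    rw [eno_nu h, mul_one]
    exact mul_le_mul_of_nonneg_right (eno_bf_le h) hs
  have e0 : eno (Pi.single k 1 : Fin n → ℝ) = 1 := by
    unfold eno esq
    rw [Finset.sum_eq_single k]
    · simp
    · intro b _ hb; simp [Pi.single_eq_of_ne hb]
    · intro hk; exact absurd (Finset.mem_univ k) hk
  have b2 : |bil u (Pi.single k 1) (fun j => bf p u j x) x| ≤ eno p * √(dn u x) := by
    refine (bil_le _ _ _ _).trans ?_
    rw [e0, one_mul]
    exact mul_le_mul_of_nonneg_right (eno_bf_le h) hs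
  have b3 : |bil u p (fun j => nu u j x) x| ≤ eno p * √(dn u x) := by
    refine (bil_le _ _ _ _).trans ?_
    rw [eno_nu h, mul_one]
  have b4 : |mc u x| ≤ n * √(dn u x) := by
    unfold mc
    refine (Finset.abs_sum_le_sum_abs _ _).trans ?_
    refine (Finset.sum_le_sum fun i _ => abs_pd_nu_le u x i i).trans (le_of_eq ?_)
    simp
  have b5 := abs_tau_le (p := p) h
  have c1 : |nu u k x * (2 * gs u x * bil u (fun j => bf p u j x) (fun j => nu u j x) x)|
      ≤ 2 * gs u x * (eno p * √(dn u x)) := by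
    rw [abs_mul, abs_mul, abs_of_nonneg (show 0 ≤ 2 * gs u x by positivity)]
    calc |nu u k x| * (2 * gs u x * |bil u (fun j => bf p u j x) (fun j => nu u j x) x|)
        ≤ 1 * (2 * gs u x * (eno p * √(dn u x))) := by gcongr
      _ = _ := by ring
  have c2 : |gs u x * bil u (Pi.single k 1) (fun j => bf p u j x) x|
      ≤ gs u x * (eno p * √(dn u x)) := by
    rw [abs_mul, abs_of_nonneg hg]
    gcongr
  have c3 : |gs u x * nu u k x * bil u p (fun j => nu u j x) x|
      ≤ gs u x * (eno p * √(dn u x)) := by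
    rw [abs_mul, abs_mul, abs_of_nonneg hg]
    calc gs u x * |nu u k x| * |bil u p (fun j => nu u j x) x|
        ≤ gs u x * 1 * (eno p * √(dn u x)) := by gcongr
      _ = _ := by ring
  have c4 : |gs u x * nu u k x * tau p u x * mc u x|
      ≤ gs u x * (eno p * (n * √(dn u x))) := by
    rw [abs_mul, abs_mul, abs_mul, abs_of_nonneg hg]
    calc gs u x * |nu u k x| * |tau p u x| * |mc u x|
        ≤ gs u x * 1 * eno p * (n * √(dn u x)) := by gcongr
      _ = _ := by ring
  have := abs_le.mp c1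
  have := abs_le.mp c2
  have := abs_le.mp c3
  have := abs_le.mp c4
  rw [abs_le]
  constructor <;> nlinarith

lemma abs_pd_bf_le (p : Fin n → ℝ) (i j : Fin n) (x : Fin n → ℝ) :
    |pd j (bf p u i) x| ≤ (n + 1) * eno p * √(dn u x) := by
  have h := hpos x
  have hs := Real.sqrt_nonneg (dn u x)
  have hp := eno_nonneg p
  rw [pd_bf hu hpos, abs_neg]
  refine (abs_add_le _ _).trans ?_
  rw [abs_mul, abs_mul]
  have h1 : |∑ l, p l * pd j (nu u l) x| ≤ n * (eno p * √(dn u x)) := by
    refine (Finset.abs_sum_le_sum_abs _ _).trans ?_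
    have : ∀ l ∈ (Finset.univ : Finset (Fin n)), |p l * pd j (nu u l) x| ≤ eno p * √(dn u x) := by
      intro l _
      rw [abs_mul]
      exact mul_le_mul (abs_coord_le_eno p l) (abs_pd_nu_le u x l j) (abs_nonneg _) hp
    refine (Finset.sum_le_sum this).trans (le_of_eq ?_)
    simp
  have h2 := abs_nu_le h i
  have h3 := abs_tau_le (p := p) h
  have h4 := abs_pd_nu_le u x i j
  calc |∑ l, p l * pd j (nu u l) x| * |nu u i x| + |tau p u x| * |pd j (nu u i) x|
      ≤ n * (eno p * √(dn u x)) * 1 + eno p * √(dn u x) := by gcongr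
    _ = _ := by ring

end smooth

/-! ### The moved Gaussian -/

/-- The moved point `x - p + s b(x)`. -/
noncomputable def Yf (p : Fin n → ℝ) (u : (Fin n → ℝ) → ℝ) (s : ℝ) (x : Fin n → ℝ) : Fin n → ℝ :=
  fun i => x i - p i + s * bf p u i x

/-- The Gaussian at the moved point. -/
noncomputable def Gf (p : Fin n → ℝ) (u : (Fin n → ℝ) → ℝ) (r s : ℝ) (x : Fin n → ℝ) : ℝ :=
  ga r (Yf p u s x)

lemma exp_aux (t : ℝ) : t * Real.exp (-t ^ 2) ≤ Real.exp (-(t ^ 2 / 2)) := by
  have h1 : t ≤ Real.exp (t ^ 2 / 2) := by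
    have := Real.add_one_le_exp (t ^ 2 / 2)
    nlinarith [sq_nonneg (t - 1)]
  calc t * Real.exp (-t ^ 2) ≤ Real.exp (t ^ 2 / 2) * Real.exp (-t ^ 2) :=
        mul_le_mul_of_nonneg_right h1 (Real.exp_pos _).le
    _ = Real.exp (-(t ^ 2 / 2)) := by rw [← Real.exp_add]; congr 1; ring

lemma esq_le_two (x y q : Fin n → ℝ) (h : ∀ i, x i = y i + q i) :
    esq x ≤ 2 * esq y + 2 * esq q := by
  unfold esq
  rw [Finset.mul_sum, Finset.mul_sum, ← Finset.sum_add_distrib]
  refine Finset.sum_le_sum fun i _ => ?_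
  rw [h i]
  nlinarith [sq_nonneg (y i - q i)]

lemma ga_le (hr : 0 < r) {x y q : Fin n → ℝ} (h : ∀ i, x i = y i + q i) (hM : esq q ≤ M) :
    ga r y ≤ Real.exp (M / r ^ 2) * ga (2 * r) x ∧
      eno y / r * ga r y ≤ Real.exp (M / r ^ 2) * ga (2 * r) x := by
  have h1 := esq_le_two x y q h
  have h0 := esq_nonneg q
  have hx := esq_nonneg x
  have hy := esq_nonneg y
  have hr2 : 0 < r ^ 2 := by positivity
  have e1 : Real.exp (-(esq y) / (2 * r ^ 2)) ≤ Real.exp (M / r ^ 2) * ga (2 * r) x := by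
    unfold ga
    rw [← Real.exp_add]
    apply Real.exp_le_exp.2
    have : M / r ^ 2 + -esq x / (2 * r) ^ 2 - -esq y / (2 * r ^ 2)
        = (4 * M - esq x + 2 * esq y) / (4 * r ^ 2) := by field_simp; ring
    have h3 : 0 ≤ (4 * M - esq x + 2 * esq y) / (4 * r ^ 2) := by
      apply div_nonneg _ (by positivity)
      linarith
    linarith
  constructor
  · refine le_trans ?_ e1
    unfold ga
    apply Real.exp_le_exp.2
    rw [div_le_div_iff₀ hr2 (by positivity)]
    nlinarith
  · refine le_trans ?_ e1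
    have h4 := exp_aux (eno y / r)
    rw [div_pow, eno_sq] at h4
    unfold ga
    have e2 : -(esq y / r ^ 2) = -esq y / r ^ 2 := by ring
    have e3 : -(esq y / r ^ 2 / 2) = -esq y / (2 * r ^ 2) := by field_simp
    rw [e2, e3] at h4
    exact h4

lemma esq_shift (h : 0 < gs u x) (s : ℝ) : esq (fun i => p i - s * bf p u i x)
    = esq p - (2 * s - s ^ 2) * (esq p - tau p u x ^ 2) := by
  have h1 := sum_p_bf (p := p) h
  have h2 := esq_bf (p := p) h
  unfold esq at *
  have e : ∀ i, (p i - s * bf p u i x) ^ 2 = p i ^ 2 - 2 * s * (p i * bf p u i x)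
      + s ^ 2 * bf p u i x ^ 2 := by intro i; ring
  rw [Finset.sum_congr rfl fun i _ => e i, Finset.sum_add_distrib, Finset.sum_sub_distrib,
    ← Finset.mul_sum, ← Finset.mul_sum, h1, h2]
  ring

lemma esq_shift_le (h : 0 < gs u x) (hs0 : 0 ≤ s) (hs1 : s ≤ 1) :
    esq (fun i => p i - s * bf p u i x) ≤ esq p := by
  rw [esq_shift h]
  have h2 := esq_bf (p := p) h
  have h3 := esq_nonneg (fun j => bf p u j x)
  nlinarith [mul_nonneg (show 0 ≤ 2 * s - s ^ 2 by nlinarith) (h2 ▸ h3)]

lemma esq_shift_le' (h : 0 < gs u x) (hs0 : -1 ≤ s) (hs1 : s ≤ 2) :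
    esq (fun i => p i - s * bf p u i x) ≤ 4 * esq p := by
  rw [esq_shift h]
  have h2 := esq_bf (p := p) h
  have h3 := esq_nonneg (fun j => bf p u j x)
  have h4 : 0 ≤ esq p - tau p u x ^ 2 := h2 ▸ h3
  have h5 := sq_nonneg (tau p u x)
  have h6 : -(2 * s - s ^ 2) ≤ 3 := by nlinarith
  nlinarith [mul_nonneg (show 0 ≤ 3 + (2 * s - s ^ 2) by linarith) h4]

lemma Gf_le (h : 0 < gs u x) (hr : 0 < r) (hs0 : 0 ≤ s) (hs1 : s ≤ 1) :
    Gf p u r s x ≤ Real.exp (esq p / r ^ 2) * ga (2 * r) x ∧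
      eno (Yf p u s x) / r * Gf p u r s x ≤ Real.exp (esq p / r ^ 2) * ga (2 * r) x :=
  ga_le hr (q := fun i => p i - s * bf p u i x) (fun i => by unfold Yf; ring) (esq_shift_le h hs0 hs1)

lemma Gf_le' (h : 0 < gs u x) (hr : 0 < r) (hs0 : -1 ≤ s) (hs1 : s ≤ 2) :
    Gf p u r s x ≤ Real.exp (4 * esq p / r ^ 2) * ga (2 * r) x ∧
      eno (Yf p u s x) / r * Gf p u r s x ≤ Real.exp (4 * esq p / r ^ 2) * ga (2 * r) x :=
  ga_le hr (q := fun i => p i - s * bf p u i x) (fun i => by unfold Yf; ring) (esq_shift_le' h hs0 hs1)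

lemma Gf_pos : 0 < Gf p u r s x := ga_pos _ _

section smooth2

variable (hu : Sol u) (hpos : ∀ x, 0 < gs u x)

include hu hpos

lemma Yf_cd (p : Fin n → ℝ) (s : ℝ) (i : Fin n) : ContDiff ℝ 1 (fun x => Yf p u s x i) := by
  unfold Yf
  exact ((coord_c2 i).sub contDiff_const).add (contDiff_const.mul (bf_cd hu hpos p i))

lemma pd_Yf (p : Fin n → ℝ) (s : ℝ) (i j : Fin n) (x : Fin n → ℝ) :
    pd j (fun x => Yf p u s x i) x = (if i = j then 1 else 0) + s * pd j (bf p u i) x := by
  have hb : DifferentiableAt ℝ (bf p u i) x := (bf_cd hu hpos p i).differentiable (by norm_num) x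
  have hc : DifferentiableAt ℝ (fun y : Fin n → ℝ => y i) x := dif (coord_c2 i) x
  have e : (fun x => Yf p u s x i) = fun x => (x i - p i) + s * bf p u i x := rfl
  rw [e, pd_add (hc.sub_const _) (hb.const_mul s), pd_sub hc (differentiableAt_const _), pd_const,
    pd_coord, pd_mul (f := fun _ => s) (differentiableAt_const _) hb, pd_const]
  ring

lemma Gf_cd (p : Fin n → ℝ) (r s : ℝ) : ContDiff ℝ 1 (Gf p u r s) := by
  unfold Gf ga esq
  exact Real.contDiff_exp.comp
    ((ContDiff.sum fun i _ => (Yf_cd hu hpos p s i).pow 2).neg.div_const _)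

lemma pd_Gf (p : Fin n → ℝ) (r s : ℝ) (j : Fin n) (x : Fin n → ℝ) :
    pd j (Gf p u r s) x = Gf p u r s x * (-(2 / r ^ 2) *
      (Yf p u s x j + s * ∑ i, Yf p u s x i * pd j (bf p u i) x)) := by
  have hY : ∀ i, DifferentiableAt ℝ (fun x => Yf p u s x i) x := fun i =>
    (Yf_cd hu hpos p s i).differentiable (by norm_num) x
  set f : (Fin n → ℝ) → ℝ := fun x => ∑ i, Yf p u s x i ^ 2 with hf
  have hfd : DifferentiableAt ℝ f x := DifferentiableAt.fun_sum fun i _ => (hY i).fun_pow 2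
  have e : Gf p u r s = fun x => (fun t : ℝ => Real.exp (-t / r ^ 2)) (f x) := rfl
  have hh : HasDerivAt (fun t : ℝ => Real.exp (-t / r ^ 2)) (Real.exp (-(f x) / r ^ 2) * (-1 / r ^ 2))
      (f x) := ((hasDerivAt_id (f x)).neg.div_const _).exp
  rw [e, pd_comp hh.differentiableAt hfd, hh.deriv]
  have e2 : pd j f x = 2 * (Yf p u s x j + s * ∑ i, Yf p u s x i * pd j (bf p u i) x) := by
    rw [hf, pd_sum (F := fun i y => Yf p u s y i ^ 2) Finset.univ (fun i _ => (hY i).fun_pow 2)]
    have e3 : ∀ i, pd j (fun y => Yf p u s y i ^ 2) x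
        = (if i = j then 2 * Yf p u s x i else 0) + 2 * s * (Yf p u s x i * pd j (bf p u i) x) := by
      intro i
      rw [pd_sq (hY i), pd_Yf hu hpos]
      split_ifs <;> ring
    rw [Finset.sum_congr rfl fun i _ => e3 i, Finset.sum_add_distrib, ← Finset.mul_sum]
    simp only [Finset.sum_ite_eq', Finset.mem_univ, if_true]
    ring
  rw [e2]
  simp only
  ring

/-- The quadratic form in the error term. -/
noncomputable def Qf (p : Fin n → ℝ) (u : (Fin n → ℝ) → ℝ) (s : ℝ) (x : Fin n → ℝ) : ℝ :=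
  ∑ j, bf p u j x * ∑ i, Yf p u s x i * pd j (bf p u i) x

lemma Qf_le (p : Fin n → ℝ) (s : ℝ) (x : Fin n → ℝ) :
    |Qf p u s x| ≤ 2 * eno (Yf p u s x) * esq p * √(dn u x) := by
  have h := hpos x
  have hs := Real.sqrt_nonneg (dn u x)
  have hp := eno_nonneg p
  have hY := eno_nonneg (Yf p u s x)
  have e : Qf p u s x = -((∑ i, Yf p u s x i * nu u i x) * bil u p (fun j => bf p u j x) x
      + tau p u x * bil u (Yf p u s x) (fun j => bf p u j x) x) := by
    unfold Qf
    have e1 : ∀ j, bf p u j x * ∑ i, Yf p u s x i * pd j (bf p u i) x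
        = -((∑ i, Yf p u s x i * nu u i x) * (∑ l, p l * bf p u j x * pd j (nu u l) x)
          + tau p u x * ∑ i, Yf p u s x i * bf p u j x * pd j (nu u i) x) := by
      intro j
      have e2 : ∑ i, Yf p u s x i * pd j (bf p u i) x
          = -((∑ i, Yf p u s x i * nu u i x) * (∑ l, p l * pd j (nu u l) x)
            + tau p u x * ∑ i, Yf p u s x i * pd j (nu u i) x) := by
        rw [Finset.sum_mul, Finset.mul_sum, ← Finset.sum_add_distrib, ← Finset.sum_neg_distrib]
        refine Finset.sum_congr rfl fun i _ => ?_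
        rw [pd_bf hu hpos]; ring
      have e3 : ∑ l, p l * bf p u j x * pd j (nu u l) x
          = bf p u j x * ∑ l, p l * pd j (nu u l) x := by
        rw [Finset.mul_sum]; exact Finset.sum_congr rfl fun l _ => by ring
      have e4 : ∑ i, Yf p u s x i * bf p u j x * pd j (nu u i) x
          = bf p u j x * ∑ i, Yf p u s x i * pd j (nu u i) x := by
        rw [Finset.mul_sum]; exact Finset.sum_congr rfl fun l _ => by ring
      rw [e2, e3, e4]; ring
    rw [Finset.sum_congr rfl fun j _ => e1 j, Finset.sum_neg_distrib, Finset.sum_add_distrib,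
      ← Finset.mul_sum, ← Finset.mul_sum]
    unfold bil
    rw [Finset.sum_comm (f := fun j l => p l * bf p u j x * pd j (nu u l) x),
      Finset.sum_comm (f := fun j i => Yf p u s x i * bf p u j x * pd j (nu u i) x)]
  have b0 : |∑ i, Yf p u s x i * nu u i x| ≤ eno (Yf p u s x) := by
    apply abs_le_of_sq_le_sq _ hY
    rw [eno_sq]
    refine (Finset.sum_mul_sq_le_sq_mul_sq _ _ _).trans ?_
    rw [sum_nu_sq h, mul_one]
    exact le_rfl
  have b1 : |bil u p (fun j => bf p u j x) x| ≤ eno p * eno p * √(dn u x) := by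
    refine (bil_le _ _ _ _).trans ?_
    have := eno_bf_le (p := p) h
    gcongr
  have b2 : |bil u (Yf p u s x) (fun j => bf p u j x) x|
      ≤ eno (Yf p u s x) * eno p * √(dn u x) := by
    refine (bil_le _ _ _ _).trans ?_
    have := eno_bf_le (p := p) h
    gcongr
  have b3 := abs_tau_le (p := p) h
  rw [e, abs_neg]
  refine (abs_add_le _ _).trans ?_
  rw [abs_mul, abs_mul]
  calc |∑ i, Yf p u s x i * nu u i x| * |bil u p (fun j => bf p u j x) x|
        + |tau p u x| * |bil u (Yf p u s x) (fun j => bf p u j x) x|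
      ≤ eno (Yf p u s x) * (eno p * eno p * √(dn u x))
        + eno p * (eno (Yf p u s x) * eno p * √(dn u x)) := by gcongr
    _ = 2 * eno (Yf p u s x) * esq p * √(dn u x) := by rw [← eno_sq p]; ring

/-- Key pointwise identity. -/
lemma key (p : Fin n → ℝ) (r s : ℝ) (k : Fin n) (x : Fin n → ℝ) :
    gs u x * nu u k x * (Gf p u r s x * (-(2 / r ^ 2) * ∑ i, Yf p u s x i * bf p u i x))
      - ∑ j, pd j (fun y => (gs u y * nu u k y * bf p u j y) * Gf p u r s y) x
    = - (∑ j, pd j (fun y => gs u y * nu u k y * bf p u j y) x) * Gf p u r s x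
      + gs u x * nu u k x * Gf p u r s x * (2 * s / r ^ 2) * Qf p u s x := by
  have dg : DifferentiableAt ℝ (gs u) x := (gs_cd hu hpos).differentiable (by norm_num) x
  have dν : ∀ i, DifferentiableAt ℝ (nu u i) x := fun i =>
    (nu_cd hu hpos i).differentiable (by norm_num) x
  have db : ∀ i, DifferentiableAt ℝ (bf p u i) x := fun i =>
    (bf_cd hu hpos p i).differentiable (by norm_num) x
  have dA : ∀ j, DifferentiableAt ℝ (fun y => gs u y * nu u k y * bf p u j y) x := fun j =>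
    (dg.fun_mul (dν k)).fun_mul (db j)
  have dG : DifferentiableAt ℝ (Gf p u r s) x := (Gf_cd hu hpos p r s).differentiable (by norm_num) x
  have e : ∀ j, pd j (fun y => (gs u y * nu u k y * bf p u j y) * Gf p u r s y) x
      = pd j (fun y => gs u y * nu u k y * bf p u j y) x * Gf p u r s x
        + gs u x * nu u k x * Gf p u r s x * (-(2 / r ^ 2)) * (Yf p u s x j * bf p u j x)
        + gs u x * nu u k x * Gf p u r s x * (-(2 / r ^ 2)) * s *
          (bf p u j x * ∑ i, Yf p u s x i * pd j (bf p u i) x) := by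
    intro j
    rw [pd_mul (f := fun y => gs u y * nu u k y * bf p u j y) (dA j) dG, pd_Gf hu hpos]
    ring
  rw [Finset.sum_congr rfl fun j _ => e j, Finset.sum_add_distrib, Finset.sum_add_distrib,
    ← Finset.sum_mul, ← Finset.mul_sum, ← Finset.mul_sum]
  unfold Qf
  ring

lemma dn_cont : Continuous (dn u) := by
  unfold dn
  exact continuous_finsetSum _ fun i _ => continuous_finsetSum _ fun j _ =>
    (continuous_pd (nu_cd hu hpos i)).pow 2

/-- The field components. -/
lemma X_cd (p : Fin n → ℝ) (r s : ℝ) (k j : Fin n) :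
    ContDiff ℝ 1 (fun y => (gs u y * nu u k y * bf p u j y) * Gf p u r s y) :=
  (((gs_cd hu hpos).mul (nu_cd hu hpos k)).mul (bf_cd hu hpos p j)).mul (Gf_cd hu hpos p r s)

lemma abs_A_le {C : ℝ} (hC0 : 0 ≤ C) (hC1 : ∀ x i, |pd i u x| ≤ C)
    (hC2 : ∀ x i j, |pd i (pd j u) x| ≤ C) (p : Fin n → ℝ) (k j : Fin n) (x : Fin n → ℝ) :
    |gs u x * nu u k x * bf p u j x| ≤ n * C ^ 2 * eno p := by
  have h := hpos x
  have h1 := (gs_dn_le hu h hC0 hC1 hC2).1
  have h2 := abs_nu_le h k
  have h3 := abs_bf_le (p := p) h j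
  have hp := eno_nonneg p
  rw [abs_mul, abs_mul, abs_of_nonneg (gs_nonneg u x)]
  calc gs u x * |nu u k x| * |bf p u j x| ≤ (n * C ^ 2) * 1 * eno p := by gcongr
    _ = _ := by ring

lemma X_int (hr : 0 < r) (hs0 : 0 ≤ s) (hs1 : s ≤ 1) (p : Fin n → ℝ) (k j : Fin n) :
    Integrable (fun y => (gs u y * nu u k y * bf p u j y) * Gf p u r s y) := by
  obtain ⟨C, hC, hC1, hC2, -⟩ := hu.exists_bound
  refine integrable_of_le (r := 2 * r) (M := n * C ^ 2 * eno p * Real.exp (esq p / r ^ 2))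
    (X_cd hu hpos p r s k j).continuous (by positivity) (fun x => ?_)
  have h := hpos x
  have h1 := abs_A_le hu hpos hC.le hC1 hC2 p k j x
  have h2 := (Gf_le (p := p) h hr hs0 hs1).1
  have h3 : 0 < Gf p u r s x := Gf_pos
  rw [abs_mul, abs_of_pos h3]
  have hp := eno_nonneg p
  calc |gs u x * nu u k x * bf p u j x| * Gf p u r s x
      ≤ (n * C ^ 2 * eno p) * (Real.exp (esq p / r ^ 2) * ga (2 * r) x) := by gcongr
    _ = _ := by ring

lemma pd_X_int (hr : 0 < r) (hs0 : 0 ≤ s) (hs1 : s ≤ 1) (p : Fin n → ℝ) (k j : Fin n) :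
    Integrable (pd j (fun y => (gs u y * nu u k y * bf p u j y) * Gf p u r s y)) := by
  obtain ⟨C, hC, hC1, hC2, -⟩ := hu.exists_bound
  have hp := eno_nonneg p
  set K : ℝ := (n * C ^ 2 + 1) * (n * C) with hK
  have hK0 : 0 ≤ K := by positivity
  set K1 : ℝ := 2 * n * C ^ 2 * eno p + K * eno p + (n + 1) * eno p * K with hK1
  set K2 : ℝ := eno p * (2 / r) * (n * C ^ 2 + n * ((n + 1) * eno p * K)) with hK2
  refine integrable_of_le (r := 2 * r) (M := (K1 + K2) * Real.exp (esq p / r ^ 2))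
    (continuous_pd (X_cd hu hpos p r s k j)) (by positivity) (fun x => ?_)
  have h := hpos x
  have dg : DifferentiableAt ℝ (gs u) x := (gs_cd hu hpos).differentiable (by norm_num) x
  have dν : ∀ i, DifferentiableAt ℝ (nu u i) x := fun i =>
    (nu_cd hu hpos i).differentiable (by norm_num) x
  have db : ∀ i, DifferentiableAt ℝ (bf p u i) x := fun i =>
    (bf_cd hu hpos p i).differentiable (by norm_num) x
  have dA : DifferentiableAt ℝ (fun y => gs u y * nu u k y * bf p u j y) x :=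
    (dg.fun_mul (dν k)).fun_mul (db j)
  have dG : DifferentiableAt ℝ (Gf p u r s) x := (Gf_cd hu hpos p r s).differentiable (by norm_num) x
  have hg := gs_nonneg u x
  have hsd := Real.sqrt_nonneg (dn u x)
  obtain ⟨g1, g2⟩ := gs_dn_le hu h hC.le hC1 hC2
  have hG : 0 < Gf p u r s x := Gf_pos
  have hν := abs_nu_le h k
  have hb := abs_bf_le (p := p) h j
  rw [pd_mul (f := fun y => gs u y * nu u k y * bf p u j y) dA dG]
  -- first term
  have t1 : |pd j (fun y => gs u y * nu u k y * bf p u j y) x| ≤ K1 := by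
    rw [pd_mul (f := fun y => gs u y * nu u k y) (dg.fun_mul (dν k)) (db j), pd_mul dg (dν k)]
    have a1 : |pd j (gs u) x| ≤ 2 * n * C ^ 2 := by
      rw [pd_gs hu.c2, abs_mul, abs_two, mul_assoc]
      refine mul_le_mul_of_nonneg_left ?_ (by norm_num)
      refine (Finset.abs_sum_le_sum_abs _ _).trans ?_
      have : ∀ i ∈ (Finset.univ : Finset (Fin n)), |pd i u x * pd j (pd i u) x| ≤ C ^ 2 := by
        intro i _
        rw [abs_mul, sq]
        exact mul_le_mul (hC1 _ _) (hC2 _ _ _) (abs_nonneg _) hC.le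
      refine (Finset.sum_le_sum this).trans (le_of_eq ?_)
      simp
    have a2 : gs u x * |pd j (nu u k) x| ≤ K :=
      (mul_le_mul_of_nonneg_left (abs_pd_nu_le u x k j) hg).trans g2
    have a3 : gs u x * |pd j (bf p u j) x| ≤ (n + 1) * eno p * K := by
      calc gs u x * |pd j (bf p u j) x| ≤ gs u x * ((n + 1) * eno p * √(dn u x)) :=
            mul_le_mul_of_nonneg_left (abs_pd_bf_le hu hpos p j j x) hg
        _ = (n + 1) * eno p * (gs u x * √(dn u x)) := by ring
        _ ≤ _ := by gcongr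
    have b1 : |pd j (gs u) x * (nu u k x * bf p u j x)| ≤ 2 * n * C ^ 2 * eno p := by
      rw [abs_mul, abs_mul]
      calc |pd j (gs u) x| * (|nu u k x| * |bf p u j x|) ≤ (2 * n * C ^ 2) * (1 * eno p) := by gcongr
        _ = _ := by ring
    have b2 : |(gs u x * pd j (nu u k) x) * bf p u j x| ≤ K * eno p := by
      rw [abs_mul, abs_mul, abs_of_nonneg hg]
      gcongr
    have b3 : |(gs u x * pd j (bf p u j) x) * nu u k x| ≤ (n + 1) * eno p * K := by
      rw [abs_mul, abs_mul, abs_of_nonneg hg]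
      calc gs u x * |pd j (bf p u j) x| * |nu u k x| ≤ ((n + 1) * eno p * K) * 1 := by gcongr
        _ = _ := by ring
    rw [show gs u x * nu u k x * pd j (bf p u j) x
        + bf p u j x * (gs u x * pd j (nu u k) x + nu u k x * pd j (gs u) x)
        = pd j (gs u) x * (nu u k x * bf p u j x) + (gs u x * pd j (nu u k) x) * bf p u j x
          + (gs u x * pd j (bf p u j) x) * nu u k x by ring]
    refine (abs_add_le _ _).trans (add_le_add ((abs_add_le _ _).trans (add_le_add b1 b2)) b3)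
  have t2 : |(gs u x * nu u k x * bf p u j x) * pd j (Gf p u r s) x|
      ≤ K2 * (Real.exp (esq p / r ^ 2) * ga (2 * r) x) := by
    rw [pd_Gf hu hpos]
    have hY := eno_nonneg (Yf p u s x)
    have c1 : |∑ i, Yf p u s x i * pd j (bf p u i) x|
        ≤ eno (Yf p u s x) * (n * ((n + 1) * eno p * √(dn u x))) := by
      refine (Finset.abs_sum_le_sum_abs _ _).trans ?_
      have : ∀ i ∈ (Finset.univ : Finset (Fin n)), |Yf p u s x i * pd j (bf p u i) x|
          ≤ eno (Yf p u s x) * ((n + 1) * eno p * √(dn u x)) := by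
        intro i _
        rw [abs_mul]
        exact mul_le_mul (abs_coord_le_eno _ i) (abs_pd_bf_le hu hpos p i j x) (abs_nonneg _) hY
      refine (Finset.sum_le_sum this).trans (le_of_eq ?_)
      simp only [Finset.sum_const, Finset.card_univ, Fintype.card_fin, nsmul_eq_mul]
      ring
    have c2 : |Yf p u s x j + s * ∑ i, Yf p u s x i * pd j (bf p u i) x|
        ≤ eno (Yf p u s x) * (1 + n * ((n + 1) * eno p * √(dn u x))) := by
      refine (abs_add_le _ _).trans ?_
      rw [abs_mul, abs_of_nonneg hs0]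
      have := abs_coord_le_eno (Yf p u s x) j
      calc |Yf p u s x j| + s * |∑ i, Yf p u s x i * pd j (bf p u i) x|
          ≤ eno (Yf p u s x) + 1 * (eno (Yf p u s x) * (n * ((n + 1) * eno p * √(dn u x)))) := by
            gcongr
        _ = _ := by ring
    have c3 := (Gf_le (p := p) h hr hs0 hs1).2
    have hr2 : |-(2 / r ^ 2)| = 2 / r ^ 2 := by
      rw [abs_neg, abs_of_pos (by positivity)]
    rw [abs_mul, abs_mul, abs_mul, abs_mul, abs_mul, abs_of_nonneg hg, abs_of_pos hG, hr2]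
    calc gs u x * |nu u k x| * |bf p u j x| * (Gf p u r s x * (2 / r ^ 2 *
          |Yf p u s x j + s * ∑ i, Yf p u s x i * pd j (bf p u i) x|))
        ≤ gs u x * 1 * eno p * (Gf p u r s x * (2 / r ^ 2 *
          (eno (Yf p u s x) * (1 + n * ((n + 1) * eno p * √(dn u x)))))) := by gcongr
      _ = eno p * (2 / r) * (gs u x + n * ((n + 1) * eno p * (gs u x * √(dn u x)))) *
          (eno (Yf p u s x) / r * Gf p u r s x) := by field_simp
      _ ≤ eno p * (2 / r) * (n * C ^ 2 + n * ((n + 1) * eno p * K)) *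
          (Real.exp (esq p / r ^ 2) * ga (2 * r) x) := by gcongr
      _ = _ := by rw [hK2]
  have hGl := (Gf_le (p := p) h hr hs0 hs1).1
  have t3 : |pd j (fun y => gs u y * nu u k y * bf p u j y) x * Gf p u r s x|
      ≤ K1 * (Real.exp (esq p / r ^ 2) * ga (2 * r) x) := by
    rw [abs_mul, abs_of_pos hG]
    have : 0 ≤ K1 := (abs_nonneg _).trans t1
    gcongr
  rw [mul_comm (Gf p u r s x)]
  refine (abs_add_le _ _).trans ((add_le_add t2 t3).trans (le_of_eq ?_))
  ring

/-- The function of `s`. -/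
noncomputable def Fs (p : Fin n → ℝ) (u : (Fin n → ℝ) → ℝ) (r : ℝ) (k : Fin n) (s : ℝ)
    (x : Fin n → ℝ) : ℝ := gs u x * nu u k x * Gf p u r s x

noncomputable def Fs' (p : Fin n → ℝ) (u : (Fin n → ℝ) → ℝ) (r : ℝ) (k : Fin n) (s : ℝ)
    (x : Fin n → ℝ) : ℝ :=
  gs u x * nu u k x * (Gf p u r s x * (-(2 / r ^ 2) * ∑ i, Yf p u s x i * bf p u i x))

lemma Fs_cont (p : Fin n → ℝ) (r s : ℝ) (k : Fin n) : Continuous (Fs p u r k s) := by
  unfold Fs
  exact (((gs_cd hu hpos).mul (nu_cd hu hpos k)).mul (Gf_cd hu hpos p r s)).continuous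

lemma Fs'_cont (p : Fin n → ℝ) (r s : ℝ) (k : Fin n) : Continuous (Fs' p u r k s) := by
  unfold Fs'
  exact (((gs_cd hu hpos).mul (nu_cd hu hpos k)).mul ((Gf_cd hu hpos p r s).mul
    (contDiff_const.mul (ContDiff.sum fun i _ => (Yf_cd hu hpos p s i).mul
      (bf_cd hu hpos p i))))).continuous

lemma Fs_int (hr : 0 < r) (hs0 : 0 ≤ s) (hs1 : s ≤ 1) (p : Fin n → ℝ) (k : Fin n) :
    Integrable (Fs p u r k s) := by
  obtain ⟨C, hC, hC1, hC2, -⟩ := hu.exists_bound
  refine integrable_of_le (r := 2 * r) (M := n * C ^ 2 * Real.exp (esq p / r ^ 2))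
    (Fs_cont hu hpos p r s k) (by positivity) (fun x => ?_)
  have h := hpos x
  have h1 := (gs_dn_le hu h hC.le hC1 hC2).1
  have h0 := gs_nonneg u x
  have h2 := (Gf_le (p := p) h hr hs0 hs1).1
  have h3 : 0 < Gf p u r s x := Gf_pos
  have h4 := abs_nu_le h k
  unfold Fs
  rw [abs_mul, abs_mul, abs_of_nonneg h0, abs_of_pos h3]
  calc gs u x * |nu u k x| * Gf p u r s x
      ≤ (n * C ^ 2) * 1 * (Real.exp (esq p / r ^ 2) * ga (2 * r) x) := by gcongr
    _ = _ := by ring

lemma hasDerivAt_Fs (p : Fin n → ℝ) (r s : ℝ) (k : Fin n) (x : Fin n → ℝ) :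
    HasDerivAt (fun s => Fs p u r k s x) (Fs' p u r k s x) s := by
  have hY : ∀ i, HasDerivAt (fun s => Yf p u s x i) (bf p u i x) s := by
    intro i
    unfold Yf
    simpa using ((hasDerivAt_id s).mul_const (bf p u i x)).const_add (x i - p i)
  have hE : HasDerivAt (fun s => esq (Yf p u s x)) (∑ i, 2 * Yf p u s x i * bf p u i x) s := by
    unfold esq
    refine (HasDerivAt.fun_sum fun i _ => (hY i).fun_pow 2).congr_deriv ?_
    refine Finset.sum_congr rfl fun i _ => ?_
    norm_num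
  have hG : HasDerivAt (fun s => Gf p u r s x)
      (Gf p u r s x * (-(∑ i, 2 * Yf p u s x i * bf p u i x) / r ^ 2)) s := by
    unfold Gf ga
    exact (hE.neg.div_const _).exp
  unfold Fs Fs'
  refine (hG.const_mul (gs u x * nu u k x)).congr_deriv ?_
  have : ∑ i, 2 * Yf p u s x i * bf p u i x = 2 * ∑ i, Yf p u s x i * bf p u i x := by
    rw [Finset.mul_sum]; exact Finset.sum_congr rfl fun i _ => by ring
  rw [this]
  ring

lemma abs_sum_Yb_le (p : Fin n → ℝ) (s : ℝ) (x : Fin n → ℝ) :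
    |∑ i, Yf p u s x i * bf p u i x| ≤ eno (Yf p u s x) * eno p := by
  have h := hpos x
  have h1 : |∑ i, Yf p u s x i * bf p u i x| ≤ eno (Yf p u s x) * eno (fun j => bf p u j x) := by
    have := eno_nonneg (Yf p u s x)
    have := eno_nonneg (fun j => bf p u j x)
    apply abs_le_of_sq_le_sq _ (by positivity)
    rw [mul_pow, eno_sq, eno_sq]
    exact Finset.sum_mul_sq_le_sq_mul_sq _ _ _
  exact h1.trans (mul_le_mul_of_nonneg_left (eno_bf_le h) (eno_nonneg _))

lemma hasDerivAt_int (hr : 0 < r) (hs0 : 0 ≤ s) (hs1 : s ≤ 1) (p : Fin n → ℝ) (k : Fin n) :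
    HasDerivAt (fun s => ∫ x, Fs p u r k s x) (∫ x, Fs' p u r k s x) s := by
  obtain ⟨C, hC, hC1, hC2, -⟩ := hu.exists_bound
  refine (hasDerivAt_integral_of_dominated_loc_of_deriv_le (μ := volume) (s := Metric.ball s 1)
    (F := Fs p u r k) (F' := Fs' p u r k)
    (bound := fun x => (n * C ^ 2 * (2 / r) * eno p * Real.exp (4 * esq p / r ^ 2)) * ga (2 * r) x)
    (Metric.ball_mem_nhds s one_pos)
    (Eventually.of_forall fun τ => (Fs_cont hu hpos p r τ k).aestronglyMeasurable)
    (Fs_int hu hpos hr hs0 hs1 p k)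
    (Fs'_cont hu hpos p r s k).aestronglyMeasurable ?_ ?_ ?_).2
  · refine Eventually.of_forall fun x t ht => ?_
    rw [Metric.mem_ball, Real.dist_eq, abs_lt] at ht
    have h := hpos x
    have h1 := (gs_dn_le hu h hC.le hC1 hC2).1
    have h0 := gs_nonneg u x
    have h2 := (Gf_le' (p := p) (s := t) h hr (by linarith) (by linarith)).2
    have h3 : 0 < Gf p u r t x := Gf_pos
    have h4 := abs_nu_le h k
    have h5 := abs_sum_Yb_le hu hpos p t x
    have hp := eno_nonneg p
    have hY := eno_nonneg (Yf p u t x)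
    have hr2 : |-(2 / r ^ 2)| = 2 / r ^ 2 := by
      rw [abs_neg, abs_of_pos (by positivity)]
    unfold Fs'
    rw [Real.norm_eq_abs, abs_mul, abs_mul, abs_mul, abs_mul, abs_of_nonneg h0, abs_of_pos h3, hr2]
    calc gs u x * |nu u k x| * (Gf p u r t x * (2 / r ^ 2 * |∑ i, Yf p u t x i * bf p u i x|))
        ≤ (n * C ^ 2) * 1 * (Gf p u r t x * (2 / r ^ 2 * (eno (Yf p u t x) * eno p))) := by gcongr
      _ = n * C ^ 2 * (2 / r) * eno p * (eno (Yf p u t x) / r * Gf p u r t x) := by field_simp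
      _ ≤ n * C ^ 2 * (2 / r) * eno p * (Real.exp (4 * esq p / r ^ 2) * ga (2 * r) x) := by gcongr
      _ = _ := by ring
  · exact (integrable_ga n (by positivity)).const_mul _
  · exact Eventually.of_forall fun x t _ => hasDerivAt_Fs hu hpos p r t k x

lemma gsdn_int (hr : 0 < r) : Integrable (fun x => gs u x * √(dn u x) * ga r x) := by
  obtain ⟨C, hC, hC1, hC2, -⟩ := hu.exists_bound
  refine integrable_of_le (r := r) (M := (n * C ^ 2 + 1) * (n * C))
    (((gs_cd hu hpos).continuous.mul (Real.continuous_sqrt.comp (dn_cont hu hpos))).mul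
      (ga_continuous r)) hr (fun x => ?_)
  have h := hpos x
  have h1 := (gs_dn_le hu h hC.le hC1 hC2).2
  have h0 := gs_nonneg u x
  have h3 := ga_pos r x
  rw [abs_mul, abs_mul, abs_of_nonneg h0, abs_of_pos h3, abs_of_nonneg (Real.sqrt_nonneg _)]
  gcongr

/-- Bound for the derivative in `s`. -/
lemma deriv_bound (hr : 0 < r) (hs0 : 0 ≤ s) (hs1 : s ≤ 1) (p : Fin n → ℝ) (k : Fin n) :
    ‖∫ x, Fs' p u r k s x‖ ≤ (n + 4) * (eno p + esq p / r) * Real.exp (esq p / r ^ 2) *
      ∫ x, gs u x * √(dn u x) * ga (2 * r) x := by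
  have h1 : ∫ x, ∑ j, pd j (fun y => (gs u y * nu u k y * bf p u j y) * Gf p u r s y) x = 0 := by
    rw [integral_finset_sum _ (fun j _ => pd_X_int hu hpos hr hs0 hs1 p k j)]
    refine Finset.sum_eq_zero fun j _ => ?_
    exact int_pd_zero' ((X_cd hu hpos p r s k j).differentiable (by norm_num))
      (X_int hu hpos hr hs0 hs1 p k j) (pd_X_int hu hpos hr hs0 hs1 p k j)
  have hi1 : Integrable (fun x => ∑ j, pd j (fun y => (gs u y * nu u k y * bf p u j y)
      * Gf p u r s y) x) := integrable_finset_sum _ (fun j _ => pd_X_int hu hpos hr hs0 hs1 p k j)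
  have hi2 : Integrable (Fs' p u r k s) := by
    obtain ⟨C, hC, hC1, hC2, -⟩ := hu.exists_bound
    refine integrable_of_le (r := 2 * r)
      (M := n * C ^ 2 * (2 / r) * eno p * Real.exp (esq p / r ^ 2))
      (Fs'_cont hu hpos p r s k) (by positivity) (fun x => ?_)
    have h := hpos x
    have h1 := (gs_dn_le hu h hC.le hC1 hC2).1
    have h0 := gs_nonneg u x
    have h2 := (Gf_le (p := p) h hr hs0 hs1).2
    have h3 : 0 < Gf p u r s x := Gf_pos
    have h4 := abs_nu_le h k
    have h5 := abs_sum_Yb_le hu hpos p s x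
    have hp := eno_nonneg p
    have hY := eno_nonneg (Yf p u s x)
    have hr2 : |-(2 / r ^ 2)| = 2 / r ^ 2 := by
      rw [abs_neg, abs_of_pos (by positivity)]
    unfold Fs'
    rw [abs_mul, abs_mul, abs_mul, abs_mul, abs_of_nonneg h0, abs_of_pos h3, hr2]
    calc gs u x * |nu u k x| * (Gf p u r s x * (2 / r ^ 2 * |∑ i, Yf p u s x i * bf p u i x|))
        ≤ (n * C ^ 2) * 1 * (Gf p u r s x * (2 / r ^ 2 * (eno (Yf p u s x) * eno p))) := by gcongr
      _ = n * C ^ 2 * (2 / r) * eno p * (eno (Yf p u s x) / r * Gf p u r s x) := by field_simp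
      _ ≤ n * C ^ 2 * (2 / r) * eno p * (Real.exp (esq p / r ^ 2) * ga (2 * r) x) := by gcongr
      _ = _ := by ring
  have h2 : ∫ x, Fs' p u r k s x = ∫ x, (Fs' p u r k s x
      - ∑ j, pd j (fun y => (gs u y * nu u k y * bf p u j y) * Gf p u r s y) x) := by
    rw [integral_sub hi2 hi1, h1, sub_zero]
  rw [h2, ← integral_const_mul]
  refine norm_integral_le_of_norm_le ((gsdn_int hu hpos (by positivity)).const_mul _)
    (Eventually.of_forall fun x => ?_)
  have h := hpos x
  have e := key hu hpos p r s k x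
  unfold Fs'
  rw [e, Real.norm_eq_abs]
  have hg := gs_nonneg u x
  have hsd := Real.sqrt_nonneg (dn u x)
  have hG : 0 < Gf p u r s x := Gf_pos
  have hν := abs_nu_le h k
  have hp := eno_nonneg p
  have hp2 := esq_nonneg p
  have hY := eno_nonneg (Yf p u s x)
  obtain ⟨g1, g2⟩ := Gf_le (p := p) h hr hs0 hs1
  have hE : 0 ≤ Real.exp (esq p / r ^ 2) * ga (2 * r) x :=
    mul_nonneg (Real.exp_pos _).le (ga_pos _ _).le
  have a1 : |-(∑ j, pd j (fun y => gs u y * nu u k y * bf p u j y) x) * Gf p u r s x|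
      ≤ (n + 4) * eno p * (gs u x * √(dn u x)) * (Real.exp (esq p / r ^ 2) * ga (2 * r) x) := by
    rw [abs_mul, abs_neg, abs_of_pos hG]
    have := div_A hu hpos p k x
    gcongr
  have a2 : |gs u x * nu u k x * Gf p u r s x * (2 * s / r ^ 2) * Qf p u s x|
      ≤ 4 * (esq p / r) * (gs u x * √(dn u x)) * (Real.exp (esq p / r ^ 2) * ga (2 * r) x) := by
    rw [abs_mul, abs_mul, abs_mul, abs_mul, abs_of_nonneg hg, abs_of_pos hG,
      abs_of_nonneg (show 0 ≤ 2 * s / r ^ 2 by positivity)]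
    have := Qf_le hu hpos p s x
    calc gs u x * |nu u k x| * Gf p u r s x * (2 * s / r ^ 2) * |Qf p u s x|
        ≤ gs u x * 1 * Gf p u r s x * (2 * 1 / r ^ 2) *
          (2 * eno (Yf p u s x) * esq p * √(dn u x)) := by gcongr
      _ = 4 * (esq p / r) * (gs u x * √(dn u x)) * (eno (Yf p u s x) / r * Gf p u r s x) := by
          field_simp; ring
      _ ≤ _ := by gcongr
  refine (abs_add_le _ _).trans ((add_le_add a1 a2).trans ?_)
  have hn : (0:ℝ) ≤ n := Nat.cast_nonneg n
  have hW : 0 ≤ (gs u x * √(dn u x)) * (Real.exp (esq p / r ^ 2) * ga (2 * r) x) := by positivity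
  have hq : 0 ≤ esq p / r := by positivity
  calc (n + 4) * eno p * (gs u x * √(dn u x)) * (Real.exp (esq p / r ^ 2) * ga (2 * r) x)
        + 4 * (esq p / r) * (gs u x * √(dn u x)) * (Real.exp (esq p / r ^ 2) * ga (2 * r) x)
      = ((n + 4) * eno p + 4 * (esq p / r)) *
        ((gs u x * √(dn u x)) * (Real.exp (esq p / r ^ 2) * ga (2 * r) x)) := by ring
    _ ≤ ((n + 4) * eno p + (n + 4) * (esq p / r)) *
        ((gs u x * √(dn u x)) * (Real.exp (esq p / r ^ 2) * ga (2 * r) x)) := by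
        apply mul_le_mul_of_nonneg_right _ hW
        nlinarith
    _ = _ := by ring

/-! ### The second step -/

lemma rd_cont : Continuous (rd u) := (Sol.rd_c2 hu).continuous

lemma wn_mul_dot (x : Fin n → ℝ) : wn u x * (∑ i, x i * nu u i x) = rd u x := by
  unfold rd
  rw [Finset.mul_sum]
  refine Finset.sum_congr rfl fun i _ => ?_
  rw [pd_eq_wn_mul_nu (hpos x) i]; ring

lemma abs_dot_le (x : Fin n → ℝ) : |∑ i, x i * nu u i x| ≤ eno x := by
  apply abs_le_of_sq_le_sq _ (eno_nonneg x)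
  rw [eno_sq]
  refine (Finset.sum_mul_sq_le_sq_mul_sq _ _ _).trans ?_
  rw [sum_nu_sq (hpos x), mul_one]
  exact le_rfl

lemma wrd_int (hr : 0 < r) : Integrable (fun x => wn u x * |rd u x| * ga r x) := by
  obtain ⟨C, hC, hC1, hC2, -⟩ := hu.exists_bound
  refine integrable_of_le (r := 2 * r) (M := n * C ^ 2 * r)
    (((wn_cd hu hpos).continuous.mul (rd_cont hu hpos).abs).mul (ga_continuous r))
    (by positivity) (fun x => ?_)
  have h := hpos x
  have h1 := (gs_dn_le hu h hC.le hC1 hC2).1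
  have h0 := gs_nonneg u x
  have h3 := ga_pos r x
  have h4 := abs_dot_le hu hpos x
  have h5 := (ga_le (M := 0) hr (x := x) (y := x) (q := fun _ => 0) (by intro i; simp)
    (by simp [esq])).2
  rw [zero_div, Real.exp_zero, one_mul] at h5
  have hw := wn_nonneg u x
  rw [← wn_mul_dot hu hpos x, abs_mul, abs_mul, abs_abs, abs_mul, abs_of_nonneg hw, abs_of_pos h3]
  have h6 := wn_sq u x
  have h7 := eno_nonneg x
  calc wn u x * (wn u x * |∑ i, x i * nu u i x|) * ga r x
      ≤ wn u x * (wn u x * eno x) * ga r x := by gcongr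
    _ = gs u x * r * (eno x / r * ga r x) := by rw [← h6]; field_simp
    _ ≤ (n * C ^ 2) * r * ga (2 * r) x := by gcongr

end smooth2

lemma abs_exp_sub_one_le (t : ℝ) : |Real.exp t - 1| ≤ |t| * Real.exp |t| := by
  rcases le_or_gt 0 t with h | h
  · rw [abs_of_nonneg h, abs_of_nonneg (by linarith [Real.one_le_exp h])]
    have h1 := Real.add_one_le_exp (-t)
    have h2 : Real.exp (-t) * Real.exp t = 1 := by rw [← Real.exp_add]; simp
    nlinarith [Real.exp_pos t]
  · rw [abs_of_neg h, abs_of_nonpos (by linarith [Real.exp_le_one_iff.2 h.le])]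
    have h1 := Real.add_one_le_exp t
    have h2 := Real.one_le_exp (show 0 ≤ -t by linarith)
    nlinarith

section final

variable (hu : Sol u) (hpos : ∀ x, 0 < gs u x)

include hu hpos

lemma second_pt (hr : 0 < r) (p : Fin n → ℝ) (k : Fin n) (x : Fin n → ℝ) :
    |Fs p u r k 1 x - gs u x * nu u k x * (ga r x * Real.exp (-(tau p u x) ^ 2 / r ^ 2))|
      ≤ 2 * (eno p / r ^ 2) * Real.exp (esq p / r ^ 2) * (wn u x * |rd u x| * ga (2 * r) x) := by
  have h := hpos x
  set d : ℝ := ∑ i, x i * nu u i x with hd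
  set τ : ℝ := tau p u x with hτ
  have hY : esq (Yf p u 1 x) = esq x - 2 * τ * d + τ ^ 2 := by
    unfold Yf bf esq
    have e : ∀ i, (x i - p i + 1 * (p i - tau p u x * nu u i x)) ^ 2
        = x i ^ 2 - 2 * τ * (x i * nu u i x) + τ ^ 2 * nu u i x ^ 2 := by
      intro i; rw [hτ]; ring
    rw [Finset.sum_congr rfl fun i _ => e i, Finset.sum_add_distrib, Finset.sum_sub_distrib,
      ← Finset.mul_sum, ← Finset.mul_sum, sum_nu_sq h]
    ring
  have hG : Gf p u r 1 x = ga r x * Real.exp (-τ ^ 2 / r ^ 2) * Real.exp (2 * τ * d / r ^ 2) := by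
    unfold Gf ga
    rw [hY, ← Real.exp_add, ← Real.exp_add]
    congr 1
    field_simp
    ring
  have e1 : Fs p u r k 1 x - gs u x * nu u k x * (ga r x * Real.exp (-τ ^ 2 / r ^ 2))
      = gs u x * nu u k x * (ga r x * Real.exp (-τ ^ 2 / r ^ 2))
        * (Real.exp (2 * τ * d / r ^ 2) - 1) := by
    unfold Fs
    rw [hG]; ring
  have h1 := abs_tau_le (p := p) h
  rw [← hτ] at h1
  have h2 := abs_dot_le hu hpos x
  rw [← hd] at h2
  have h3 : ga r x * Real.exp (-τ ^ 2 / r ^ 2) * Real.exp |2 * τ * d / r ^ 2|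
      ≤ Real.exp (esq p / r ^ 2) * ga (2 * r) x := by
    unfold ga
    rw [← Real.exp_add, ← Real.exp_add, ← Real.exp_add]
    apply Real.exp_le_exp.2
    have a1 : |2 * τ * d / r ^ 2| = 2 * (|τ| * |d|) / r ^ 2 := by
      rw [abs_div, abs_mul, abs_mul, abs_two, abs_of_pos (show 0 < r ^ 2 by positivity)]; ring
    rw [a1]
    have a2 : |τ| * |d| ≤ |τ| * eno x := mul_le_mul_of_nonneg_left h2 (abs_nonneg _)
    have a3 := eno_sq x
    have a4 := eno_sq p
    have a5 := sq_abs τ
    have a6 : τ ^ 2 ≤ esq p := by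
      rw [← a4, ← a5]
      exact pow_le_pow_left₀ (abs_nonneg _) h1 2
    have a7 : 2 * (|τ| * |d|) ≤ esq x / 2 + 2 * τ ^ 2 := by
      rw [← a3, ← a5]
      nlinarith [sq_nonneg (eno x - 2 * |τ|)]
    have a8 := esq_nonneg x
    have : esq p / r ^ 2 + -esq x / (2 * r) ^ 2
        - (-esq x / r ^ 2 + -τ ^ 2 / r ^ 2 + 2 * (|τ| * |d|) / r ^ 2)
        = (4 * esq p + 3 * esq x + 4 * τ ^ 2 - 8 * (|τ| * |d|)) / (4 * r ^ 2) := by
      field_simp; ring
    have h9 : 0 ≤ (4 * esq p + 3 * esq x + 4 * τ ^ 2 - 8 * (|τ| * |d|)) / (4 * r ^ 2) := by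
      apply div_nonneg _ (by positivity)
      linarith
    linarith
  have h4 := abs_exp_sub_one_le (2 * τ * d / r ^ 2)
  have h5 := abs_nu_le h k
  have hg := gs_nonneg u x
  have hga := ga_pos r x
  have hw := wn_nonneg u x
  have hp := eno_nonneg p
  have hg2 := ga_pos (2 * r) x
  rw [e1, abs_mul, abs_mul, abs_mul, abs_of_nonneg hg,
    abs_of_pos (show 0 < ga r x * Real.exp (-τ ^ 2 / r ^ 2) by positivity)]
  have h6 : gs u x * |d| = wn u x * |rd u x| := by
    rw [← wn_mul_dot hu hpos x, ← hd, abs_mul, abs_of_nonneg hw, ← wn_sq]; ring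
  have h7 : |2 * τ * d / r ^ 2| = 2 / r ^ 2 * |τ| * |d| := by
    rw [abs_div, abs_mul, abs_mul, abs_two, abs_of_pos (show 0 < r ^ 2 by positivity)]; ring
  calc gs u x * |nu u k x| * (ga r x * Real.exp (-τ ^ 2 / r ^ 2))
        * |Real.exp (2 * τ * d / r ^ 2) - 1|
      ≤ gs u x * 1 * (ga r x * Real.exp (-τ ^ 2 / r ^ 2))
        * (|2 * τ * d / r ^ 2| * Real.exp |2 * τ * d / r ^ 2|) := by gcongr
    _ = gs u x * |2 * τ * d / r ^ 2| *
        (ga r x * Real.exp (-τ ^ 2 / r ^ 2) * Real.exp |2 * τ * d / r ^ 2|) := by ring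
    _ ≤ gs u x * |2 * τ * d / r ^ 2| * (Real.exp (esq p / r ^ 2) * ga (2 * r) x) := by gcongr
    _ = 2 / r ^ 2 * |τ| * (gs u x * |d|) * (Real.exp (esq p / r ^ 2) * ga (2 * r) x) := by
        rw [h7]; ring
    _ = 2 / r ^ 2 * |τ| * (wn u x * |rd u x|) * (Real.exp (esq p / r ^ 2) * ga (2 * r) x) := by
        rw [h6]
    _ ≤ 2 / r ^ 2 * eno p * (wn u x * |rd u x|) * (Real.exp (esq p / r ^ 2) * ga (2 * r) x) := by
        gcongr
    _ = _ := by ring

lemma lim_int (hr : 0 < r) (p : Fin n → ℝ) (k : Fin n) : Integrable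
    (fun x => gs u x * nu u k x * (ga r x * Real.exp (-(tau p u x) ^ 2 / r ^ 2))) := by
  obtain ⟨C, hC, hC1, hC2, -⟩ := hu.exists_bound
  refine integrable_of_le (r := r) (M := n * C ^ 2)
    (((gs_cd hu hpos).continuous.mul (nu_cd hu hpos k).continuous).mul ((ga_continuous r).mul
      (Real.continuous_exp.comp (((tau_cd hu hpos p).continuous.pow 2).neg.div_const _))))
    hr (fun x => ?_)
  have h := hpos x
  have h1 := (gs_dn_le hu h hC.le hC1 hC2).1
  have h0 := gs_nonneg u x
  have h3 := ga_pos r x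
  have h4 := abs_nu_le h k
  have h5 : Real.exp (-(tau p u x) ^ 2 / r ^ 2) ≤ 1 := by
    apply Real.exp_le_one_iff.2
    apply div_nonpos_of_nonpos_of_nonneg _ (sq_nonneg _)
    have := sq_nonneg (tau p u x)
    linarith
  have h6 := Real.exp_pos (-(tau p u x) ^ 2 / r ^ 2)
  rw [abs_mul, abs_mul, abs_mul, abs_of_nonneg h0, abs_of_pos h3, abs_of_pos h6]
  calc gs u x * |nu u k x| * (ga r x * Real.exp (-(tau p u x) ^ 2 / r ^ 2))
      ≤ (n * C ^ 2) * 1 * (ga r x * 1) := by gcongr
    _ = _ := by ring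

end final

end TT

open TT Vale.Agent.P134.SM in
/-- PLN-T. -/
theorem T : StT := by
  intro n
  refine ⟨n + 4, by positivity, ?_⟩
  intro u hu hpos r hr p k
  have h0 : (∫ x, gs u x * nu u k x * ga r (x - p)) = ∫ x, Fs p u r k 0 x := by
    refine integral_congr_ae (Eventually.of_forall fun x => ?_)
    unfold Fs Gf
    have : Yf p u 0 x = x - p := by funext i; simp [Yf]
    simp only [this]
  have h1 : ‖(∫ x, Fs p u r k 1 x) - ∫ x, Fs p u r k 0 x‖
      ≤ (n + 4) * (eno p + esq p / r) * Real.exp (esq p / r ^ 2) *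
        ∫ x, gs u x * √(dn u x) * ga (2 * r) x := by
    refine norm_image_sub_le_of_norm_deriv_le_segment_01' (f := fun s => ∫ x, Fs p u r k s x)
      (f' := fun s => ∫ x, Fs' p u r k s x) (fun s hs => ?_) (fun s hs => ?_)
    · exact (hasDerivAt_int hu hpos hr hs.1 hs.2 p k).hasDerivWithinAt
    · exact deriv_bound hu hpos hr hs.1 hs.2.le p k
  have i1 := Fs_int hu hpos (s := 1) hr zero_le_one le_rfl p k
  have i2 := lim_int hu hpos hr p k
  have i3 := wrd_int hu hpos (r := 2 * r) (by positivity)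
  have h2 : ‖∫ x, (Fs p u r k 1 x - gs u x * nu u k x * (ga r x *
        Real.exp (-(tau p u x) ^ 2 / r ^ 2)))‖
      ≤ 2 * (eno p / r ^ 2) * Real.exp (esq p / r ^ 2) *
        ∫ x, wn u x * |rd u x| * ga (2 * r) x := by
    rw [← integral_const_mul]
    exact norm_integral_le_of_norm_le (i3.const_mul _)
      (Eventually.of_forall fun x => by
        rw [Real.norm_eq_abs]; exact second_pt hu hpos hr p k x)
  rw [integral_sub i1 i2] at h2
  rw [Real.norm_eq_abs] at h1 h2
  rw [h0]
  have hI1 : 0 ≤ ∫ x, gs u x * √(dn u x) * ga (2 * r) x :=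
    integral_nonneg fun x => mul_nonneg (mul_nonneg (gs_nonneg u x) (Real.sqrt_nonneg _))
      (ga_pos _ _).le
  have hI2 : 0 ≤ ∫ x, wn u x * |rd u x| * ga (2 * r) x :=
    integral_nonneg fun x => mul_nonneg (mul_nonneg (wn_nonneg u x) (abs_nonneg _))
      (ga_pos _ _).le
  have hE := Real.exp_pos (esq p / r ^ 2)
  have hp := eno_nonneg p
  have hn : (0:ℝ) ≤ n := Nat.cast_nonneg n
  have h3 : 2 * (eno p / r ^ 2) * Real.exp (esq p / r ^ 2) *
        (∫ x, wn u x * |rd u x| * ga (2 * r) x)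
      ≤ (n + 4) * (eno p / r ^ 2) * Real.exp (esq p / r ^ 2) *
        ∫ x, wn u x * |rd u x| * ga (2 * r) x := by
    have : (2:ℝ) ≤ n + 4 := by linarith
    gcongr
  have h4 := abs_le.mp h1
  have h5 := abs_le.mp (h2.trans h3)
  have e : (n + 4) * Real.exp (esq p / r ^ 2) *
      ((eno p + esq p / r) * (∫ x, gs u x * √(dn u x) * ga (2 * r) x)
        + eno p / r ^ 2 * ∫ x, wn u x * |rd u x| * ga (2 * r) x)
      = (n + 4) * (eno p + esq p / r) * Real.exp (esq p / r ^ 2) *
          (∫ x, gs u x * √(dn u x) * ga (2 * r) x)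
        + (n + 4) * (eno p / r ^ 2) * Real.exp (esq p / r ^ 2) *
        ∫ x, wn u x * |rd u x| * ga (2 * r) x := by ring
  rw [e, abs_le]
  constructor <;> linarith

end Vale.Agent.P134.PLN
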