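import Vale.Agent.P134.PLN.Defs
import Vale.Agent.P134.PLN.T
import Vale.Agent.P134.PLN.GW

set_option linter.all false

/-! PLN-N: asymptotic planes formula. -/

open MeasureTheory Filter Topology

namespace Vale.Agent.P134.PLN

open Vale.Agent.P134 Vale.Agent.P134.SM Vale.Agent.P134.M4

namespace NN

variable {n : ℕ} {u : (Fin n → ℝ) → ℝ}

lemma psi_cont (hu : Sol u) : Continuous (psi u) := by
  unfold psi
  exact continuous_const.sub (hu.c2.continuous.pow 2)

lemma defi_cont (hu : Sol u) : Continuous (defi u) := (Sol.defi_c2 hu).continuous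

/-- Modica: `|∇u|² ≤ ψ²/2`. -/
lemma gs_le (hu : Sol u) (x : Fin n → ℝ) : gs u x ≤ psi u x ^ 2 / 2 := by
  have h := hu.defi_nonneg x
  rw [defi_eq] at h
  linarith

lemma wn_le (hu : Sol u) (x : Fin n → ℝ) : wn u x ≤ psi u x := by
  have h1 := wn_sq u x
  have h2 := gs_le hu x
  have h3 := hu.psi_nonneg x
  exact abs_le_of_sq_le_sq' (by nlinarith) h3 |>.2

lemma intOn {f : (Fin n → ℝ) → ℝ} (hf : Continuous f) (R : ℝ) : IntegrableOn f (bl R) volume :=
  hf.continuousOn.integrableOn_compact (GWx.isCompact_bl R)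

/-- (K1) for `|∇u|²`. -/
lemma one {u : (Fin 4 → ℝ) → ℝ} (hu : Sol u) (hpos : ∀ x, 0 < gs u x) (hK : K1 u) :
    ∀ ε : ℝ, 0 < ε → ∀ᶠ R : ℝ in atTop, ∫ x in bl R, gs u x * √(dn u x) ≤ ε * R ^ 2 := by
  intro ε hε
  filter_upwards [hK ε hε] with R hR
  refine le_trans (setIntegral_mono (intOn ?_ R) (intOn ?_ R) ?_) hR
  · exact (TT.gs_cd hu hpos).continuous.mul (TT.dn_cont hu hpos).sqrt
  · exact ((psi_cont hu).mul (TT.wn_cd hu hpos).continuous).mul (TT.dn_cont hu hpos).sqrt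
  · intro x
    have h1 := wn_sq u x
    have h2 := wn_le hu x
    have h3 := wn_nonneg u x
    have h4 := Real.sqrt_nonneg (dn u x)
    have h5 : gs u x ≤ psi u x * wn u x := by rw [← h1]; nlinarith
    exact mul_le_mul_of_nonneg_right h5 h4

/-- Cauchy-Schwarz for `∫ w |x·∇u|`. -/
lemma two {u : (Fin 4 → ℝ) → ℝ} (hu : Sol u) (hpos : ∀ x, 0 < gs u x) (hE : E3 u) (hS : S0 u) :
    ∀ ε : ℝ, 0 < ε → ∀ᶠ R : ℝ in atTop, ∫ x in bl R, wn u x * |rd u x| ≤ ε * R ^ 4 := by
  intro ε hε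
  obtain ⟨C, hC⟩ := hE
  have hC' : 0 < |C| + 1 := by positivity
  set a : ℝ := ε / (|C| + 1) with ha
  have ha0 : 0 < a := by positivity
  have haC : a * |C| ≤ ε := by
    rw [ha, div_mul_eq_mul_div, div_le_iff₀ hC']
    nlinarith [abs_nonneg C]
  filter_upwards [hS (a * ε) (by positivity), eventually_ge_atTop 1] with R hR h1
  have hR0 : 0 < R := by linarith
  have hpsi := hC R h1
  have i1 : IntegrableOn (fun x => wn u x * |rd u x|) (bl R) volume :=
    intOn ((TT.wn_cd hu hpos).continuous.mul (TT.rd_cont hu hpos).abs) R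
  have i2 : IntegrableOn (fun x => a * R / 2 * psi u x ^ 2) (bl R) volume :=
    intOn (continuous_const.mul ((psi_cont hu).pow 2)) R
  have i3 : IntegrableOn (fun x => 1 / (2 * a * R) * rd u x ^ 2) (bl R) volume :=
    intOn (continuous_const.mul ((TT.rd_cont hu hpos).pow 2)) R
  have hpt : ∀ x, wn u x * |rd u x| ≤ a * R / 2 * psi u x ^ 2 + 1 / (2 * a * R) * rd u x ^ 2 := by
    intro x
    have h2 := wn_le hu x
    have h3 := wn_nonneg u x
    have h4 : wn u x * |rd u x| ≤ psi u x * |rd u x| :=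
      mul_le_mul_of_nonneg_right h2 (abs_nonneg _)
    have h5 : psi u x * |rd u x| ≤ a * R / 2 * psi u x ^ 2 + 1 / (2 * a * R) * rd u x ^ 2 := by
      have haR : 0 < a * R := by positivity
      have h6 := sq_nonneg (a * R * psi u x - |rd u x|)
      have h7 : a * R / 2 * psi u x ^ 2 + 1 / (2 * a * R) * rd u x ^ 2 - psi u x * |rd u x|
          = (a * R * psi u x - |rd u x|) ^ 2 / (2 * (a * R)) := by
        rw [← sq_abs (rd u x)]
        field_simp
        ring
      have h8 : 0 ≤ (a * R * psi u x - |rd u x|) ^ 2 / (2 * (a * R)) := by positivity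
      linarith
    linarith
  calc ∫ x in bl R, wn u x * |rd u x|
      ≤ ∫ x in bl R, (a * R / 2 * psi u x ^ 2 + 1 / (2 * a * R) * rd u x ^ 2) :=
        setIntegral_mono i1 (i2.add i3) hpt
    _ = a * R / 2 * (∫ x in bl R, psi u x ^ 2) + 1 / (2 * a * R) * ∫ x in bl R, rd u x ^ 2 := by
        rw [integral_add i2 i3, integral_const_mul, integral_const_mul]
    _ ≤ a * R / 2 * (|C| * R ^ 3) + 1 / (2 * a * R) * (a * ε * R ^ 5) := by
        have h9 : (∫ x in bl R, psi u x ^ 2) ≤ |C| * R ^ 3 :=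
          hpsi.trans (mul_le_mul_of_nonneg_right (le_abs_self C) (by positivity))
        gcongr
    _ = (a * |C|) / 2 * R ^ 4 + ε / 2 * R ^ 4 := by field_simp
    _ ≤ ε / 2 * R ^ 4 + ε / 2 * R ^ 4 := by
        have : (0:ℝ) < R ^ 4 := by positivity
        nlinarith
    _ = ε * R ^ 4 := by ring

end NN

theorem N : StP → StGW → StDs → StN := by
  intro hP hGW hDs u hu hpos hE hS hST hK κ hκ M hM δ hδ
  obtain ⟨C, hC, hP⟩ := hP 4
  have g1c : Continuous (fun x => gs u x * √(dn u x)) :=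
    (TT.gs_cd hu hpos).continuous.mul (TT.dn_cont hu hpos).sqrt
  have g2c : Continuous (fun x => wn u x * |rd u x|) :=
    (TT.wn_cd hu hpos).continuous.mul (TT.rd_cont hu hpos).abs
  set E : ℝ := Real.exp (M ^ 2 / κ ^ 2) with hEdef
  have hE0 : 0 < E := Real.exp_pos _
  set K : ℝ := C * M * E * ((M + M ^ 2 / κ) * (2 * κ) ^ 2 + M / κ ^ 2 * (2 * κ) ^ 4
    + (2 * κ) ^ 3) with hKdef
  have hK0 : 0 < K := by positivity
  have hε : 0 < δ / K := by positivity
  have ht : Tendsto (fun R : ℝ => 2 * (κ * R)) atTop atTop :=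
    (tendsto_id.const_mul_atTop hκ).const_mul_atTop (by norm_num)
  have e1 := ht.eventually (hGW 4 2 _ g1c (fun x => mul_nonneg (gs_nonneg u x)
    (Real.sqrt_nonneg _)) (NN.one hu hpos hK) (δ / K) hε)
  have e2 := ht.eventually (hGW 4 4 _ g2c (fun x => mul_nonneg (wn_nonneg u x)
    (abs_nonneg _)) (NN.two hu hpos hE hS) (δ / K) hε)
  have e3 := ht.eventually (hGW 4 3 _ (NN.defi_cont hu) (fun x => hu.defi_nonneg x)
    (hDs u hu hE hST) (δ / K) hε)
  filter_upwards [e1, e2, e3, eventually_gt_atTop 0] with R h1 h2 h3 hR p hp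
  have hr : 0 < κ * R := by positivity
  have hb := hP u hu hpos (κ * R) hr p
  have hMR : 0 < M * R := by positivity
  have hpn : eno p ≤ M * R := by
    apply (abs_le_of_sq_le_sq' _ hMR.le).2
    rw [eno_sq]; exact hp
  have hp0 := eno_nonneg p
  have hq0 := esq_nonneg p
  have hexp : Real.exp (esq p / (κ * R) ^ 2) ≤ E := by
    apply Real.exp_le_exp.mpr
    rw [div_le_div_iff₀ (by positivity) (by positivity)]
    have : esq p * κ ^ 2 ≤ (M * R) ^ 2 * κ ^ 2 := mul_le_mul_of_nonneg_right hp (by positivity)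
    nlinarith
  have hA : eno p + esq p / (κ * R) ≤ (M + M ^ 2 / κ) * R := by
    have h4 : esq p / (κ * R) ≤ (M * R) ^ 2 / (κ * R) :=
      div_le_div_of_nonneg_right hp hr.le
    have h5 : (M * R) ^ 2 / (κ * R) = M ^ 2 / κ * R := by field_simp
    nlinarith
  have hB : eno p / (κ * R) ^ 2 ≤ M / (κ ^ 2 * R) := by
    have h4 : eno p / (κ * R) ^ 2 ≤ (M * R) / (κ * R) ^ 2 :=
      div_le_div_of_nonneg_right hpn (by positivity)
    have h5 : (M * R) / (κ * R) ^ 2 = M / (κ ^ 2 * R) := by field_simp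
    linarith
  have I1 := h1.2
  have I2 := h2.2
  have I3 := h3.2
  have J1 : 0 ≤ ∫ x, gs u x * √(dn u x) * ga (2 * (κ * R)) x :=
    integral_nonneg fun x => mul_nonneg (mul_nonneg (gs_nonneg u x) (Real.sqrt_nonneg _))
      (TT.ga_pos _ _).le
  have J2 : 0 ≤ ∫ x, wn u x * |rd u x| * ga (2 * (κ * R)) x :=
    integral_nonneg fun x => mul_nonneg (mul_nonneg (wn_nonneg u x) (abs_nonneg _))
      (TT.ga_pos _ _).le
  have J3 : 0 ≤ ∫ x, defi u x * ga (2 * (κ * R)) x :=
    integral_nonneg fun x => mul_nonneg (hu.defi_nonneg x) (TT.ga_pos _ _).le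
  refine hb.trans ?_
  calc C * eno p * Real.exp (esq p / (κ * R) ^ 2) *
      ((eno p + esq p / (κ * R)) * (∫ x, gs u x * √(dn u x) * ga (2 * (κ * R)) x)
        + eno p / (κ * R) ^ 2 * (∫ x, wn u x * |rd u x| * ga (2 * (κ * R)) x)
        + ∫ x, defi u x * ga (2 * (κ * R)) x)
      ≤ C * (M * R) * E * (((M + M ^ 2 / κ) * R) * (δ / K * (2 * (κ * R)) ^ 2)
        + M / (κ ^ 2 * R) * (δ / K * (2 * (κ * R)) ^ 4) + δ / K * (2 * (κ * R)) ^ 3) := by
        gcongr
    _ = K * (δ / K) * R ^ 4 := by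
        rw [hKdef]
        field_simp
    _ = δ * R ^ 4 := by
        rw [mul_div_cancel₀ _ hK0.ne']

end Vale.Agent.P134.PLN
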