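import Vale.Agent.P134.PLN.Defs

/-! PLN: assembly of OUT2 from the interface statements. -/

set_option linter.all false

open MeasureTheory Filter Topology
open scoped Pointwise

namespace Vale.Agent.P134.PLN

open Vale.Agent.P134 Vale.Agent.P134.SM Vale.Agent.P134.M4
open Vale.Agent.P134.H891 (Psi)

lemma mem_bl {n : ℕ} {R : ℝ} {x : Fin n → ℝ} : x ∈ bl R ↔ ∑ i, x i ^ 2 ≤ R ^ 2 := Iff.rfl

lemma smul_ball {R s : ℝ} (hR : 0 < R) (hs : 0 ≤ s) :
    R • {x : Fin 4 → ℝ | ∑ i, x i ^ 2 ≤ s ^ 2} = bl (s * R) := by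
  ext x
  rw [Set.mem_smul_set_iff_inv_smul_mem₀ hR.ne', mem_bl]
  simp only [Set.mem_setOf_eq, Pi.smul_apply, smul_eq_mul, mul_pow, inv_pow]
  rw [← Finset.mul_sum, inv_mul_le_iff₀ (by positivity)]
  constructor <;> intro h <;> linarith

lemma setIntegral_scale {R s : ℝ} (hR : 0 < R) (hs : 0 ≤ s) (f : (Fin 4 → ℝ) → ℝ) :
    ∫ x in {x : Fin 4 → ℝ | ∑ i, x i ^ 2 ≤ s ^ 2}, f (R • x)
      = (R ^ 4)⁻¹ * ∫ x in bl (s * R), f x := by
  rw [Measure.setIntegral_comp_smul volume f _ hR.ne', smul_ball hR hs]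
  simp only [Module.finrank_fintype_fun_eq_card, Fintype.card_fin, smul_eq_mul]
  rw [abs_of_pos (by positivity)]

lemma Psi_one_pos : 0 < Psi 1 := by
  have := H891.Psi_eq 1
  rw [this]
  positivity

/-- Assembly of OUT2. -/
theorem out2 (hN : StN) (hH : StH) (hV : StV) (hL : StL) (hW : StW) (hEta : StEta)
    (hEnd : StEnd) : StOut2 := by
  intro u hM hE hS hST hK ε hε
  set c0 : ℝ := Psi 1 with hc0
  have c0pos : 0 < c0 := Psi_one_pos
  have hE3 : E3 u := by
    obtain ⟨C, hC⟩ := hE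
    exact ⟨C, fun R hR => by simpa using hC 0 R hR⟩
  have hgs : ∀ x, 0 < gs u x := by
    intro x
    have h1 : pd 3 u x ^ 2 ≤ gs u x :=
      Finset.single_le_sum (f := fun i => pd i u x ^ 2) (fun i _ => sq_nonneg _)
        (Finset.mem_univ 3)
    have := pow_pos (hM.pos x) 2
    linarith
  obtain ⟨η, ηpos, hη⟩ := hEta u hM
  obtain ⟨t, tpos, ht1, δ, δpos, key⟩ := hEnd 4 (1 / 5) (η / c0) (ε / c0) (by norm_num)
    (by positivity) (by positivity)
  obtain ⟨CL, hCL⟩ := hL u hM.toSol hE 4 (by norm_num)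
  obtain ⟨CW, hCW⟩ := hW u hM.toSol hE3
  -- choice of κ
  obtain ⟨κ, κpos, κ1, hκ⟩ : ∃ κ : ℝ, 0 < κ ∧ κ ≤ 1 ∧ CL * κ ≤ δ * c0 := by
    refine ⟨min 1 (δ * c0 / (|CL| + 1)), by positivity, min_le_left _ _, ?_⟩
    have h1 : min 1 (δ * c0 / (|CL| + 1)) ≤ δ * c0 / (|CL| + 1) := min_le_right _ _
    have h0 : 0 < min 1 (δ * c0 / (|CL| + 1)) := by positivity
    calc CL * min 1 (δ * c0 / (|CL| + 1)) ≤ (|CL| + 1) * min 1 (δ * c0 / (|CL| + 1)) :=
          mul_le_mul_of_nonneg_right (by linarith [le_abs_self CL]) h0.le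
      _ ≤ (|CL| + 1) * (δ * c0 / (|CL| + 1)) := mul_le_mul_of_nonneg_left h1 (by positivity)
      _ = δ * c0 := by field_simp
  have hN' := hN u hM.toSol hgs hE3 hS hST hK κ κpos 4 (by norm_num)
    (δ * c0 * (Real.pi ^ 2 * κ ^ 4)) (by positivity)
  have hCL' := hCL κ κpos κ1
  -- the main claim at scale `R`
  have main : ∀ᶠ R : ℝ in atTop, ∃ e : Fin 4 → ℝ, ∑ i, e i ^ 2 = 1 ∧
      ∫ x in bl (t * R), |Psi (u x) - if 0 < ∑ i, e i * x i then Psi 1 else 0|
        ≤ ε * (t * R) ^ 4 := by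
    filter_upwards [hN', hCL', hη, eventually_ge_atTop 1,
      eventually_ge_atTop (64 * CW / (δ * c0 ^ 2))] with R hNR hLR hηR hR1 hR2
    have hR : 0 < R := by linarith
    have hκR : 0 < κ * R := by positivity
    set Z : ℝ := Real.pi ^ 2 * (κ * R) ^ 4 with hZ
    have Zpos : 0 < Z := by positivity
    obtain ⟨hHo, hH3⟩ := hH u hM (κ * R) hκR
    obtain ⟨hVc, hVb⟩ := hV u hM.toSol (κ * R) hκR
    set ψ : (Fin 4 → ℝ) → ℝ := fun x => Psi (u (R • x)) / c0 with hψ
    set v : (Fin 4 → ℝ) → ℝ := fun x => vP u (κ * R) (R • x) / (c0 * Z) with hv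
    set H : (Fin 4 → ℝ) → ℝ := fun x => HP u (κ * R) (R • x) / (c0 * Z) with hHdef
    set c : ℝ := vP u (κ * R) 0 / (c0 * Z) with hc
    have hcu : Continuous u := hM.c2.continuous
    have hcP : Continuous (fun x => Psi (u x)) := H891.continuous_Psi.comp hcu
    have m1 : Measurable ψ := by
      have : Continuous ψ := (hcP.comp (continuous_const_smul R)).div_const _
      exact this.measurable
    have p1 : ∀ x, 0 ≤ ψ x := fun x => div_nonneg (H891.Psi_nonneg (hM.bd _)) c0pos.le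
    have p2 : ∀ x, ψ x ≤ 1 := fun x => by
      rw [div_le_one c0pos]; exact H891.Psi_le_Psi_one (hM.bd _)
    have p3 : Continuous v := (hVc.comp (continuous_const_smul R)).div_const _
    have p4 : ∀ x, 0 ≤ v x := fun x => div_nonneg (hVb _).1 (by positivity)
    have p5 : ∀ x, v x ≤ 1 := fun x => by
      rw [div_le_one (by positivity)]; exact (hVb _).2
    have p6 : ∀ x, H (-x) = - H x := fun x => by
      simp only [hHdef, smul_neg, hHo, neg_div]
    have p7 : ∀ x q, |H x + H q - H (x + q)| ≤ 3 / 2 - 1 / 5 := by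
      intro x q
      have h1 := hH3 (R • x) (R • q)
      have e1 : H x + H q - H (x + q)
          = (HP u (κ * R) (R • x) + HP u (κ * R) (R • q) - HP u (κ * R) (R • x + R • q))
            / (c0 * Z) := by
        simp only [hHdef, smul_add]; ring
      rw [e1, abs_div, abs_of_pos (show 0 < c0 * Z by positivity), div_le_iff₀ (by positivity)]
      calc _ ≤ 13 / 10 * c0 * Z := h1
        _ = (3 / 2 - 1 / 5) * (c0 * Z) := by ring
    have p8 : ∀ p : Fin 4 → ℝ, ∑ i, p i ^ 2 ≤ 16 → |v p - c - H p| ≤ δ := by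
      intro p hp
      have h0 : esq (R • p) ≤ (4 * R) ^ 2 := by
        unfold esq
        simp only [Pi.smul_apply, smul_eq_mul, mul_pow]
        rw [← Finset.mul_sum]
        nlinarith [sq_nonneg R]
      have h1 := hNR (R • p) h0
      have e1 : v p - c - H p
          = (vP u (κ * R) (R • p) - vP u (κ * R) 0 - HP u (κ * R) (R • p)) / (c0 * Z) := by
        simp only [hv, hc, hHdef]; ring
      rw [e1, abs_div, abs_of_pos (show 0 < c0 * Z by positivity), div_le_iff₀ (by positivity)]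
      calc _ ≤ δ * c0 * (Real.pi ^ 2 * κ ^ 4) * R ^ 4 := h1
        _ = δ * (c0 * Z) := by rw [hZ]; ring
    have p9 : (∫ x in {x : Fin 4 → ℝ | ∑ i, x i ^ 2 ≤ 4 ^ 2}, ψ x * (1 - ψ x)) ≤ δ := by
      have e1 : (fun x => ψ x * (1 - ψ x))
          = fun x => (fun y => Psi (u y) * (Psi 1 - Psi (u y)) / c0 ^ 2) (R • x) := by
        funext x
        simp only [hψ]
        rw [← hc0]
        field_simp
      have e2 : (∫ x in {x : Fin 4 → ℝ | ∑ i, x i ^ 2 ≤ 4 ^ 2}, ψ x * (1 - ψ x))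
          = (R ^ 4)⁻¹ * ∫ x in bl (4 * R), Psi (u x) * (Psi 1 - Psi (u x)) / c0 ^ 2 := by
        rw [e1]
        exact setIntegral_scale hR (by norm_num)
          (fun y => Psi (u y) * (Psi 1 - Psi (u y)) / c0 ^ 2)
      rw [e2, integral_div]
      have h1 := hCW (4 * R) (by linarith)
      rw [inv_mul_le_iff₀ (by positivity), div_le_iff₀ (by positivity)]
      refine h1.trans ?_
      have h3 : 64 * CW ≤ R * (δ * c0 ^ 2) := by
        rwa [div_le_iff₀ (by positivity)] at hR2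
      have : CW * (4 * R) ^ 3 = (64 * CW) * R ^ 3 := by ring
      rw [this]
      calc (64 * CW) * R ^ 3 ≤ (R * (δ * c0 ^ 2)) * R ^ 3 :=
            mul_le_mul_of_nonneg_right h3 (by positivity)
        _ = R ^ 4 * δ * c0 ^ 2 := by ring
    have p10 : (∫ x in {x : Fin 4 → ℝ | ∑ i, x i ^ 2 ≤ 4 ^ 2}, |ψ x - v x|) ≤ δ := by
      have e1 : (fun x => |ψ x - v x|)
          = fun x => (fun y => |Psi (u y) - vP u (κ * R) y / Z| / c0) (R • x) := by
        funext x
        simp only [hψ, hv]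
        rw [show Psi (u (R • x)) / c0 - vP u (κ * R) (R • x) / (c0 * Z)
          = (Psi (u (R • x)) - vP u (κ * R) (R • x) / Z) / c0 by field_simp, abs_div,
          abs_of_pos c0pos]
      have e2 : (∫ x in {x : Fin 4 → ℝ | ∑ i, x i ^ 2 ≤ 4 ^ 2}, |ψ x - v x|)
          = (R ^ 4)⁻¹ * ∫ x in bl (4 * R), |Psi (u x) - vP u (κ * R) x / Z| / c0 := by
        rw [e1]
        exact setIntegral_scale hR (by norm_num)
          (fun y => |Psi (u y) - vP u (κ * R) y / Z| / c0)
      rw [e2, integral_div, inv_mul_le_iff₀ (by positivity), div_le_iff₀ c0pos]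
      calc _ ≤ CL * κ * R ^ 4 := hLR
        _ ≤ (δ * c0) * R ^ 4 := mul_le_mul_of_nonneg_right hκ (by positivity)
        _ = R ^ 4 * δ * c0 := by ring
    have p11 : η / c0 ≤ (∫ x in {x : Fin 4 → ℝ | ∑ i, x i ^ 2 ≤ 1 ^ 2}, ψ x) := by
      have e2 : (∫ x in {x : Fin 4 → ℝ | ∑ i, x i ^ 2 ≤ 1 ^ 2}, ψ x)
          = (R ^ 4)⁻¹ * ∫ x in bl (1 * R), Psi (u x) / c0 :=
        setIntegral_scale hR (by norm_num) (fun y => Psi (u y) / c0)
      rw [e2, integral_div, one_mul, ← div_eq_inv_mul, div_div, div_le_div_iff₀ c0pos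
        (by positivity)]
      nlinarith [hηR.1, c0pos]
    have p12 : η / c0 ≤ (∫ x in {x : Fin 4 → ℝ | ∑ i, x i ^ 2 ≤ 1 ^ 2}, (1 - ψ x)) := by
      have e1 : (fun x => 1 - ψ x) = fun x => (fun y => (Psi 1 - Psi (u y)) / c0) (R • x) := by
        funext x
        simp only [hψ]
        rw [← hc0]; field_simp
      have e2 : (∫ x in {x : Fin 4 → ℝ | ∑ i, x i ^ 2 ≤ 1 ^ 2}, (1 - ψ x))
          = (R ^ 4)⁻¹ * ∫ x in bl (1 * R), (Psi 1 - Psi (u x)) / c0 := by
        rw [e1]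
        exact setIntegral_scale hR (by norm_num) (fun y => (Psi 1 - Psi (u y)) / c0)
      rw [e2, integral_div, one_mul, ← div_eq_inv_mul, div_div, div_le_div_iff₀ c0pos
        (by positivity)]
      nlinarith [hηR.2, c0pos]
    obtain ⟨a, ha, hfin⟩ := key ψ v H c m1 p1 p2 p3 p4 p5 p6 p7 p8 p9 p10 p11 p12
    refine ⟨a, ha, ?_⟩
    have e1 : (fun x : Fin 4 → ℝ => |ψ x - if 0 < ∑ i, a i * x i then (1:ℝ) else 0|)
        = fun x => (fun y : Fin 4 → ℝ =>
          |Psi (u y) - if 0 < ∑ i, a i * y i then Psi 1 else 0| / c0) (R • x) := by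
      funext x
      simp only [hψ]
      have hsum : ∑ i, a i * (R • x) i = R * ∑ i, a i * x i := by
        rw [Finset.mul_sum]
        refine Finset.sum_congr rfl fun i _ => ?_
        simp only [Pi.smul_apply, smul_eq_mul]; ring
      have hiff : 0 < ∑ i, a i * (R • x) i ↔ 0 < ∑ i, a i * x i := by
        rw [hsum]
        exact ⟨fun h => (mul_pos_iff_of_pos_left hR).mp h, fun h => mul_pos hR h⟩
      rw [← abs_of_pos c0pos, ← abs_div, abs_of_pos c0pos]
      congr 1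
      by_cases h : 0 < ∑ i, a i * x i
      · rw [if_pos h, if_pos (hiff.mpr h), ← hc0]; field_simp
      · rw [if_neg h, if_neg (fun h' => h (hiff.mp h'))]; ring
    rw [e1] at hfin
    have e2 := setIntegral_scale hR tpos.le (fun y : Fin 4 → ℝ =>
          |Psi (u y) - if 0 < ∑ i, a i * y i then Psi 1 else 0| / c0)
    rw [e2, integral_div, inv_mul_le_iff₀ (by positivity), div_le_iff₀ c0pos] at hfin
    refine hfin.trans (le_of_eq ?_)
    field_simp
  -- change of scale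
  have hT : Tendsto (fun R : ℝ => R / t) atTop atTop := tendsto_id.atTop_div_const tpos
  filter_upwards [hT.eventually main] with R hR
  rwa [mul_div_cancel₀ R tpos.ne'] at hR

end Vale.Agent.P134.PLN
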