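import Vale.Agent.P134.PLN.Defs
import Vale.Agent.P134.H517.Conv

set_option linter.all false

/-! PLN-P: the planes formula for the potential, from the translation identity `StT`. -/

open MeasureTheory Filter Topology

namespace Vale.Agent.P134.PLN

open Vale.Agent.P134 Vale.Agent.P134.SM Vale.Agent.P134.M4
open Vale.Agent.P134.H891 (Psi)
open Vale.Agent.P134.H517 Vale.Agent.P134.H283

namespace PP

variable {n : ℕ} {u : (Fin n → ℝ) → ℝ} {p q x : Fin n → ℝ} {r t : ℝ}

lemma ga_eq (r : ℝ) (x : Fin n → ℝ) : ga r x = gam (1 / r ^ 2) x := by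
  unfold ga gam esq; congr 1; ring

lemma ga_pos (r : ℝ) (x : Fin n → ℝ) : 0 < ga r x := Real.exp_pos _

lemma ga_continuous (r : ℝ) : Continuous (ga r : (Fin n → ℝ) → ℝ) := by
  have : (ga r : (Fin n → ℝ) → ℝ) = gam (1 / r ^ 2) := by funext x; exact ga_eq r x
  rw [this]; exact gam_continuous _

lemma ga_integrable (hr : 0 < r) : Integrable (ga r : (Fin n → ℝ) → ℝ) := by
  have : (ga r : (Fin n → ℝ) → ℝ) = gam (1 / r ^ 2) := by funext x; exact ga_eq r x
  rw [this]; exact gam_integrable (by positivity)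

lemma vP_eq (u : (Fin n → ℝ) → ℝ) (r : ℝ) (p : Fin n → ℝ) :
    vP u r p = cv (1 / r ^ 2) (fun x => Psi (u x)) p := by
  unfold vP cv
  simp_rw [ga_eq]

lemma Psi_abs_le_one (hu : Sol u) (x : Fin n → ℝ) : |Psi (u x)| ≤ 1 := by
  rw [abs_of_nonneg (H891.Psi_nonneg (hu.bd x))]
  exact H891.Psi_le_one (hu.bd x)

lemma gs_le (hu : Sol u) (x : Fin n → ℝ) : gs u x ≤ psi u x ^ 2 / 2 := by
  have := hu.modica x
  unfold gs psi
  linarith

lemma gs_le_half (hu : Sol u) (x : Fin n → ℝ) : gs u x ≤ 1 / 2 := by
  have h1 := gs_le hu x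
  have h2 := hu.psi_nonneg x
  have h3 := psi_le_one u x
  nlinarith

lemma defi_eq (u : (Fin n → ℝ) → ℝ) (x : Fin n → ℝ) : defi u x = psi u x ^ 2 / 2 - gs u x := rfl

lemma wn_le (hu : Sol u) (x : Fin n → ℝ) : wn u x ≤ psi u x / √2 := by
  have h2 : (0:ℝ) < √2 := by positivity
  have hs : √2 ^ 2 = (2:ℝ) := Real.sq_sqrt (by norm_num)
  apply Real.sqrt_le_iff.2
  refine ⟨div_nonneg (hu.psi_nonneg x) h2.le, ?_⟩
  rw [div_pow, hs]
  exact gs_le hu x

lemma abs_pd_le_one (hu : Sol u) (x : Fin n → ℝ) (i : Fin n) : |pd i u x| ≤ 1 := by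
  have h1 := gs_le_half hu x
  have h2 : pd i u x ^ 2 ≤ gs u x :=
    Finset.single_le_sum (f := fun i => pd i u x ^ 2) (fun i _ => sq_nonneg _) (Finset.mem_univ i)
  apply abs_le_of_sq_le_sq (by nlinarith) (by norm_num)

lemma psi_div_bd (hu : Sol u) (x : Fin n → ℝ) : 0 ≤ psi u x / √2 ∧ psi u x / √2 ≤ 1 := by
  have h1 := hu.psi_nonneg x
  have h2 := psi_le_one u x
  have h3 := H891.one_lt_sqrt2
  have h4 := H891.sqrt2_pos
  refine ⟨by positivity, ?_⟩
  rw [div_le_one h4]; linarith

lemma abs_pd_Psi_le (hu : Sol u) (x : Fin n → ℝ) (i : Fin n) :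
    |pd i (fun x => Psi (u x)) x| ≤ 1 := by
  rw [H891.pd_Psi hu, abs_mul]
  obtain ⟨h1, h2⟩ := psi_div_bd hu x
  have h3 := abs_pd_le_one hu x i
  rw [abs_of_nonneg h1]
  have := abs_nonneg (pd i u x)
  nlinarith

/-! ### the normal -/

lemma dd_sq_le (p : Fin n → ℝ) (x : Fin n → ℝ) : dd p u x ^ 2 ≤ esq p * gs u x :=
  Finset.sum_mul_sq_le_sq_mul_sq _ _ _

lemma abs_dd_le_wn (p : Fin n → ℝ) (x : Fin n → ℝ) : |dd p u x| ≤ eno p * wn u x := by
  apply abs_le_of_sq_le_sq _ (mul_nonneg (eno_nonneg p) (wn_nonneg u x))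
  rw [mul_pow, eno_sq, wn_sq]
  exact dd_sq_le p x

lemma abs_tau_le (h : 0 < gs u x) (p : Fin n → ℝ) : |tau p u x| ≤ eno p := by
  unfold tau
  rw [abs_div, abs_of_pos (wn_pos h), div_le_iff₀ (wn_pos h)]
  exact abs_dd_le_wn p x

lemma tau_smul (t : ℝ) (p : Fin n → ℝ) (u : (Fin n → ℝ) → ℝ) (x : Fin n → ℝ) :
    tau (t • p) u x = t * tau p u x := by
  unfold tau dd
  rw [← mul_div_assoc, Finset.mul_sum]
  congr 1
  refine Finset.sum_congr rfl fun i _ => ?_
  simp only [Pi.smul_apply, smul_eq_mul]; ring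

lemma gs_continuous (hu : Sol u) : Continuous (gs u) := (Sol.gs_nat hu 0).continuous

lemma wn_continuous (hu : Sol u) : Continuous (wn u) := (gs_continuous hu).sqrt

lemma tau_continuous (hu : Sol u) (hg : ∀ x, 0 < gs u x) (p : Fin n → ℝ) :
    Continuous (tau p u) := by
  unfold tau
  exact (dd_continuous (hu.c2.of_le (by norm_num)) p).div (wn_continuous hu)
    (fun x => (wn_pos (hg x)).ne')

lemma eno_smul (t : ℝ) (p : Fin n → ℝ) : eno (t • p) = |t| * eno p := by
  unfold eno esq
  have : ∑ i, (t • p) i ^ 2 = t ^ 2 * ∑ i, p i ^ 2 := by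
    rw [Finset.mul_sum]
    refine Finset.sum_congr rfl fun i _ => ?_
    simp only [Pi.smul_apply, smul_eq_mul]; ring
  rw [this, Real.sqrt_mul (sq_nonneg t), Real.sqrt_sq_eq_abs]

lemma esq_smul (t : ℝ) (p : Fin n → ℝ) : esq (t • p) = t ^ 2 * esq p := by
  unfold esq
  rw [Finset.mul_sum]
  refine Finset.sum_congr rfl fun i _ => ?_
  simp only [Pi.smul_apply, smul_eq_mul]; ring

/-! ### `Gr` -/

lemma Gr_zero (r : ℝ) : Gr r 0 = 0 := by unfold Gr; simp

lemma Gr_hasDerivAt (r t : ℝ) : HasDerivAt (Gr r) (Real.exp (-t ^ 2 / r ^ 2)) t := by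
  unfold Gr
  exact intervalIntegral.integral_hasDerivAt_right
    ((by fun_prop : Continuous fun y : ℝ => Real.exp (-y ^ 2 / r ^ 2)).intervalIntegrable _ _)
    ((by fun_prop : Continuous fun y : ℝ => Real.exp (-y ^ 2 / r ^ 2)).stronglyMeasurableAtFilter _ _)
    (by fun_prop : Continuous fun y : ℝ => Real.exp (-y ^ 2 / r ^ 2)).continuousAt

lemma Gr_continuous (r : ℝ) : Continuous (Gr r) :=
  continuous_iff_continuousAt.2 fun t => (Gr_hasDerivAt r t).continuousAt

lemma exp_le_one (r t : ℝ) : Real.exp (-t ^ 2 / r ^ 2) ≤ 1 := by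
  rw [Real.exp_le_one_iff]
  have : 0 ≤ t ^ 2 / r ^ 2 := by positivity
  rw [neg_div]; linarith

lemma abs_Gr_le (r t : ℝ) : |Gr r t| ≤ |t| := by
  unfold Gr
  have h := intervalIntegral.norm_integral_le_of_norm_le_const (a := 0) (b := t) (C := 1)
    (f := fun y : ℝ => Real.exp (-y ^ 2 / r ^ 2)) (fun y _ => by
      rw [Real.norm_eq_abs, abs_of_pos (Real.exp_pos _)]
      exact exp_le_one r y)
  simpa using h

/-! ### Derivatives along `t ↦ t p` -/

lemma hasDerivAt_vP (hu : Sol u) (hr : 0 < r) (p : Fin n → ℝ) (t : ℝ) :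
    HasDerivAt (fun t : ℝ => vP u r (t • p))
      (∫ x, (psi u x / √2 * dd p u x) * ga r (x - t • p)) t := by
  have h := hasDerivAt_cv (b := 1 / r ^ 2) (by positivity) (H891.Psi_comp_contDiff hu)
    (Psi_abs_le_one hu) (abs_pd_Psi_le hu) 0 p t
  have e1 : (fun t : ℝ => vP u r (t • p)) = fun t : ℝ => cv (1 / r ^ 2) (fun x => Psi (u x)) (0 + t • p) := by
    funext s; rw [vP_eq, zero_add]
  have e2 : ∫ x, (psi u x / √2 * dd p u x) * ga r (x - t • p)
      = cv (1 / r ^ 2) (dd p (fun x => Psi (u x))) (0 + t • p) := by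
    unfold cv
    rw [zero_add]
    refine integral_congr_ae (Eventually.of_forall fun x => ?_)
    simp only
    rw [ga_eq]
    congr 1
    unfold dd
    rw [Finset.mul_sum]
    refine Finset.sum_congr rfl fun i _ => ?_
    rw [H891.pd_Psi hu]; ring
  rw [e1, e2]
  exact h

lemma hasDerivAt_HP (hu : Sol u) (hg : ∀ x, 0 < gs u x) (hr : 0 < r) (p : Fin n → ℝ) (t : ℝ) :
    HasDerivAt (fun t : ℝ => HP u r (t • p))
      (∫ x, gs u x * ga r x * (Real.exp (-(t * tau p u x) ^ 2 / r ^ 2) * tau p u x)) t := by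
  have hmain := (hasDerivAt_integral_of_dominated_loc_of_deriv_le (μ := volume)
    (F := fun s x => gs u x * ga r x * Gr r (s * tau p u x))
    (F' := fun s x => gs u x * ga r x * (Real.exp (-(s * tau p u x) ^ 2 / r ^ 2) * tau p u x))
    (x₀ := t) (s := Set.univ)
    (bound := fun x => ga r x * eno p) Filter.univ_mem
    (Filter.Eventually.of_forall fun s =>
      (((gs_continuous hu).mul (ga_continuous r)).mul ((Gr_continuous r).comp
        (continuous_const.mul (tau_continuous hu hg p)))).aestronglyMeasurable)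
    (by
      refine Integrable.mono' ((ga_integrable (n := n) hr).mul_const (|t| * eno p))
        (((gs_continuous hu).mul (ga_continuous r)).mul ((Gr_continuous r).comp
        (continuous_const.mul (tau_continuous hu hg p)))).aestronglyMeasurable ?_
      filter_upwards with x
      rw [Real.norm_eq_abs, abs_mul, abs_mul, abs_of_pos (ga_pos r x), abs_of_nonneg (gs_nonneg u x)]
      have h1 := gs_le_half hu x
      have h2 : |Gr r (t * tau p u x)| ≤ |t| * eno p := by
        refine (abs_Gr_le _ _).trans ?_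
        rw [abs_mul]
        exact mul_le_mul_of_nonneg_left (abs_tau_le (hg x) p) (abs_nonneg _)
      have h3 := ga_pos r x
      have h4 := gs_nonneg u x
      refine mul_le_mul ?_ h2 (abs_nonneg _) h3.le
      nlinarith)
    ((((gs_continuous hu).mul (ga_continuous r)).mul ((by
      exact (Real.continuous_exp.comp (((continuous_const.mul (tau_continuous hu hg p)).pow 2).neg.div_const _)).mul
        (tau_continuous hu hg p) ))).aestronglyMeasurable)
    (Filter.Eventually.of_forall fun x s _ => by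
      rw [Real.norm_eq_abs, abs_mul, abs_mul, abs_mul, abs_of_pos (ga_pos r x),
        abs_of_nonneg (gs_nonneg u x), abs_of_pos (Real.exp_pos _)]
      have h1 := gs_le_half hu x
      have h2 := exp_le_one r (s * tau p u x)
      have h3 := abs_tau_le (hg x) p
      have h4 := gs_nonneg u x
      have h5 := ga_pos r x
      have h6 : Real.exp (-(s * tau p u x) ^ 2 / r ^ 2) * |tau p u x| ≤ eno p := by
        calc Real.exp (-(s * tau p u x) ^ 2 / r ^ 2) * |tau p u x| ≤ 1 * eno p :=
              mul_le_mul h2 h3 (abs_nonneg _) zero_le_one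
          _ = eno p := one_mul _
      refine mul_le_mul ?_ h6 (by positivity) h5.le
      nlinarith)
    ((ga_integrable hr).mul_const _)
    (Filter.Eventually.of_forall fun x s _ => by
      have hG := (Gr_hasDerivAt r (s * tau p u x)).comp s
        ((hasDerivAt_id s).mul_const (tau p u x))
      have := hG.const_mul (gs u x * ga r x)
      simpa [Function.comp_def] using this)).2
  have e1 : (fun t : ℝ => HP u r (t • p)) = fun s : ℝ => ∫ x, gs u x * ga r x * Gr r (s * tau p u x) := by
    funext s; unfold HP; simp_rw [tau_smul]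
  rw [e1]
  exact hmain

/-! ### Bounds -/

lemma esq_sub_le (x q : Fin n → ℝ) : esq x / 2 ≤ esq (x - q) + esq q := by
  unfold esq
  rw [← Finset.sum_add_distrib, Finset.sum_div]
  refine Finset.sum_le_sum fun i _ => ?_
  simp only [Pi.sub_apply]
  nlinarith [sq_nonneg (x i - 2 * q i)]

lemma ga_shift_le (hr : 0 < r) (p : Fin n → ℝ) (ht : |t| ≤ 1) (x : Fin n → ℝ) :
    ga r (x - t • p) ≤ Real.exp (esq p / r ^ 2) * ga (2 * r) x := by
  unfold ga
  rw [← Real.exp_add]
  apply Real.exp_le_exp.2
  have h1 := esq_sub_le x (t • p)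
  have h2 : esq (t • p) ≤ esq p := by
    rw [esq_smul]
    have : t ^ 2 ≤ 1 := by
      have := sq_abs t; nlinarith [abs_nonneg t]
    nlinarith [esq_nonneg p]
  have h3 := esq_nonneg x
  have h4 : (0:ℝ) < r ^ 2 := by positivity
  rw [show esq p / r ^ 2 + -esq x / (2 * r) ^ 2 = (esq p - esq x / 4) / r ^ 2 by
    field_simp; ring]
  exact div_le_div_of_nonneg_right (by linarith) h4.le

lemma abs_coord_le (p : Fin n → ℝ) (k : Fin n) : |p k| ≤ eno p := by
  unfold eno
  apply Real.abs_le_sqrt
  exact Finset.single_le_sum (f := fun j => p j ^ 2) (fun i _ => sq_nonneg _) (Finset.mem_univ k)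

lemma gs_mul_nu (h : 0 < gs u x) (k : Fin n) : gs u x * nu u k x = wn u x * pd k u x := by
  have h1 := (wn_pos h).ne'
  unfold nu
  rw [← wn_sq]
  field_simp

lemma gs_mul_tau (h : 0 < gs u x) (p : Fin n → ℝ) : gs u x * tau p u x = wn u x * dd p u x := by
  have h1 := (wn_pos h).ne'
  unfold tau
  rw [← wn_sq]
  field_simp

lemma nu_continuous (hu : Sol u) (hg : ∀ x, 0 < gs u x) (k : Fin n) : Continuous (nu u k) := by
  unfold nu
  exact (continuous_pd (hu.c2.of_le (by norm_num))).div (wn_continuous hu)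
    (fun x => (wn_pos (hg x)).ne')

lemma wn_mul_dd (hu : Sol u) (p : Fin n → ℝ) (x : Fin n → ℝ) :
    |(psi u x / √2 - wn u x) * dd p u x| ≤ eno p * defi u x := by
  have h1 := wn_le hu x
  have h2 := wn_nonneg u x
  have h3 := abs_dd_le_wn (u := u) p x
  have h4 := eno_nonneg p
  have h5 := (psi_div_bd hu x).1
  have hs : √2 ^ 2 = (2:ℝ) := Real.sq_sqrt (by norm_num)
  have h6 : defi u x = (psi u x / √2) ^ 2 - wn u x ^ 2 := by
    rw [div_pow, hs, wn_sq]; rfl
  rw [abs_mul, abs_of_nonneg (by linarith), h6]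
  calc (psi u x / √2 - wn u x) * |dd p u x| ≤ (psi u x / √2 - wn u x) * (eno p * wn u x) :=
        mul_le_mul_of_nonneg_left h3 (by linarith)
    _ = eno p * ((psi u x / √2 - wn u x) * wn u x) := by ring
    _ ≤ eno p * ((psi u x / √2 - wn u x) * (psi u x / √2 + wn u x)) := by
        apply mul_le_mul_of_nonneg_left _ h4
        exact mul_le_mul_of_nonneg_left (by linarith) (by linarith)
    _ = _ := by ring

lemma psi_continuous (hu : Sol u) : Continuous (psi u) := by
  unfold psi
  exact continuous_const.sub (hu.c2.continuous.pow 2)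

lemma defi_continuous (hu : Sol u) : Continuous (defi u) := by
  have : defi u = fun x => psi u x ^ 2 / 2 - gs u x := by funext x; rfl
  rw [this]
  exact (((psi_continuous hu).pow 2).div_const _).sub (gs_continuous hu)

lemma abs_defi_le_one (hu : Sol u) (x : Fin n → ℝ) : |defi u x| ≤ 1 := by
  have h0 := hu.defi_nonneg x
  rw [abs_of_nonneg h0, defi_eq]
  have h1 := gs_nonneg u x
  have h2 := hu.psi_nonneg x
  have h3 := psi_le_one u x
  nlinarith

lemma defi_ga_integrable (hu : Sol u) (hr : 0 < r) : Integrable (fun x => defi u x * ga r x) :=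
  integrable_bdd_mul (defi_continuous hu) (abs_defi_le_one hu) (ga_integrable hr)

end PP

open PP in
theorem P : StT → StP := by
  intro hT n
  obtain ⟨C, hC, hT⟩ := hT n
  refine ⟨n * C + 1, by positivity, fun u hu hg r hr p => ?_⟩
  set I1 : ℝ := ∫ x, gs u x * √(dn u x) * ga (2 * r) x with hI1
  set I2 : ℝ := ∫ x, wn u x * |rd u x| * ga (2 * r) x with hI2
  set I3 : ℝ := ∫ x, defi u x * ga (2 * r) x with hI3
  have hI1n : 0 ≤ I1 := integral_nonneg fun x =>
    mul_nonneg (mul_nonneg (gs_nonneg u x) (Real.sqrt_nonneg _)) (ga_pos _ x).le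
  have hI2n : 0 ≤ I2 := integral_nonneg fun x =>
    mul_nonneg (mul_nonneg (wn_nonneg u x) (abs_nonneg _)) (ga_pos _ x).le
  have hI3n : 0 ≤ I3 := integral_nonneg fun x =>
    mul_nonneg (hu.defi_nonneg x) (ga_pos _ x).le
  set E : ℝ := Real.exp (esq p / r ^ 2) with hE
  have hEp : 0 < E := Real.exp_pos _
  have hp0 := eno_nonneg p
  have hq0 := esq_nonneg p
  have hdd : Continuous (dd p u) := dd_continuous (hu.c2.of_le (by norm_num)) p
  have hpd : ∀ k, Continuous (pd k u) := fun k => continuous_pd (hu.c2.of_le (by norm_num))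
  -- derivative
  have hder : ∀ t : ℝ, HasDerivAt (fun t : ℝ => vP u r (t • p) - HP u r (t • p))
      ((∫ x, (psi u x / √2 * dd p u x) * ga r (x - t • p)) -
        ∫ x, gs u x * ga r x * (Real.exp (-(t * tau p u x) ^ 2 / r ^ 2) * tau p u x)) t :=
    fun t => (hasDerivAt_vP hu hr p t).sub (hasDerivAt_HP hu hg hr p t)
  have hbound : ∀ t ∈ Set.Ico (0:ℝ) 1,
      ‖(∫ x, (psi u x / √2 * dd p u x) * ga r (x - t • p)) -
        ∫ x, gs u x * ga r x * (Real.exp (-(t * tau p u x) ^ 2 / r ^ 2) * tau p u x)‖ ≤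
      (n * C + 1) * eno p * E * ((eno p + esq p / r) * I1 + eno p / r ^ 2 * I2 + I3) := by
    intro t ht
    have ht0 : 0 ≤ t := ht.1
    have ht1 : t ≤ 1 := ht.2.le
    have hta : |t| ≤ 1 := by rw [abs_of_nonneg ht0]; exact ht1
    have gsh : Integrable (fun x => ga r (x - t • p)) := (ga_integrable hr).comp_sub_right _
    -- the translation identity
    have hTk : ∀ k, |(∫ x, gs u x * nu u k x * ga r (x - t • p))
        - ∫ x, gs u x * nu u k x * (ga r x * Real.exp (-(tau (t • p) u x) ^ 2 / r ^ 2))|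
        ≤ C * E * ((eno p + esq p / r) * I1 + eno p / r ^ 2 * I2) := by
      intro k
      refine (hT u hu hg r hr (t • p) k).trans ?_
      have e1 : eno (t • p) ≤ eno p := by
        rw [eno_smul]; exact mul_le_of_le_one_left hp0 hta
      have e2 : esq (t • p) ≤ esq p := by
        rw [esq_smul]; exact mul_le_of_le_one_left hq0 (by nlinarith)
      have e3 := esq_nonneg (t • p)
      have e4 := eno_nonneg (t • p)
      have hr2 : 0 < r ^ 2 := by positivity
      apply mul_le_mul
      · apply mul_le_mul_of_nonneg_left _ hC.le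
        exact Real.exp_le_exp.2 (div_le_div_of_nonneg_right e2 hr2.le)
      · apply add_le_add
        · exact mul_le_mul_of_nonneg_right (add_le_add e1 (div_le_div_of_nonneg_right e2 hr.le)) hI1n
        · exact mul_le_mul_of_nonneg_right (div_le_div_of_nonneg_right e1 hr2.le) hI2n
      · positivity
      · positivity
    have hsplit : (∫ x, (psi u x / √2 * dd p u x) * ga r (x - t • p)) -
        (∫ x, gs u x * ga r x * (Real.exp (-(t * tau p u x) ^ 2 / r ^ 2) * tau p u x)) =
        (∑ k, p k * ((∫ x, gs u x * nu u k x * ga r (x - t • p))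
        - ∫ x, gs u x * nu u k x * (ga r x * Real.exp (-(tau (t • p) u x) ^ 2 / r ^ 2)))) +
        ∫ x, ((psi u x / √2 - wn u x) * dd p u x) * ga r (x - t • p) := by
      have ia : ∀ k, Integrable (fun x => gs u x * nu u k x * ga r (x - t • p)) := by
        intro k
        have : (fun x => gs u x * nu u k x * ga r (x - t • p)) =
            fun x => (wn u x * pd k u x) * ga r (x - t • p) := by
          funext x; rw [gs_mul_nu (hg x)]
        rw [this]
        refine integrable_bdd_mul ((wn_continuous hu).mul (hpd k)) (C := 1) (fun x => ?_) gsh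
        rw [abs_mul, abs_of_nonneg (wn_nonneg u x)]
        have a1 := (wn_le hu x).trans (psi_div_bd hu x).2
        have a2 := abs_pd_le_one hu x k
        have a3 := wn_nonneg u x
        have a4 := abs_nonneg (pd k u x)
        nlinarith
      have ib : ∀ k, Integrable (fun x => gs u x * nu u k x *
          (ga r x * Real.exp (-(tau (t • p) u x) ^ 2 / r ^ 2))) := by
        intro k
        have : (fun x => gs u x * nu u k x * (ga r x * Real.exp (-(tau (t • p) u x) ^ 2 / r ^ 2))) =
            fun x => (wn u x * pd k u x * Real.exp (-(tau (t • p) u x) ^ 2 / r ^ 2)) * ga r x := by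
          funext x; rw [gs_mul_nu (hg x)]; ring
        rw [this]
        refine integrable_bdd_mul (((wn_continuous hu).mul (hpd k)).mul
          (Real.continuous_exp.comp (((tau_continuous hu hg (t • p)).pow 2).neg.div_const _)))
          (C := 1) (fun x => ?_) (ga_integrable hr)
        rw [abs_mul, abs_mul, abs_of_nonneg (wn_nonneg u x), abs_of_pos (Real.exp_pos _)]
        have a1 := (wn_le hu x).trans (psi_div_bd hu x).2
        have a2 := abs_pd_le_one hu x k
        have a3 := wn_nonneg u x
        have a4 := abs_nonneg (pd k u x)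
        have a5 := exp_le_one r (tau (t • p) u x)
        have a6 : wn u x * |pd k u x| ≤ 1 := by nlinarith
        have a7 : 0 ≤ wn u x * |pd k u x| := by positivity
        have a8 := Real.exp_pos (-(tau (t • p) u x) ^ 2 / r ^ 2)
        nlinarith
      have ic : Integrable (fun x => ((psi u x / √2 - wn u x) * dd p u x) * ga r (x - t • p)) := by
        refine integrable_bdd_mul ((((psi_continuous hu).div_const _).sub (wn_continuous hu)).mul hdd)
          (C := eno p * 1) (fun x => ?_) gsh
        refine (wn_mul_dd hu p x).trans ?_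
        exact mul_le_mul_of_nonneg_left ((le_abs_self _).trans (abs_defi_le_one hu x)) hp0
      have e1 : ∑ k, p k * ((∫ x, gs u x * nu u k x * ga r (x - t • p))
          - ∫ x, gs u x * nu u k x * (ga r x * Real.exp (-(tau (t • p) u x) ^ 2 / r ^ 2)))
          = (∫ x, ∑ k, p k * (gs u x * nu u k x * ga r (x - t • p)))
            - ∫ x, ∑ k, p k * (gs u x * nu u k x *
              (ga r x * Real.exp (-(tau (t • p) u x) ^ 2 / r ^ 2))) := by
        rw [integral_finset_sum _ (fun k _ => (ia k).const_mul (p k)),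
          integral_finset_sum _ (fun k _ => (ib k).const_mul (p k)), ← Finset.sum_sub_distrib]
        refine Finset.sum_congr rfl fun k _ => ?_
        rw [integral_const_mul, integral_const_mul]; ring
      have e2 : ∫ x, ∑ k, p k * (gs u x * nu u k x *
              (ga r x * Real.exp (-(tau (t • p) u x) ^ 2 / r ^ 2)))
          = ∫ x, gs u x * ga r x * (Real.exp (-(t * tau p u x) ^ 2 / r ^ 2) * tau p u x) := by
        refine integral_congr_ae (Eventually.of_forall fun x => ?_)
        simp only
        rw [tau_smul]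
        have : tau p u x = ∑ k, p k * nu u k x := by
          unfold tau dd nu
          rw [Finset.sum_div]
          exact Finset.sum_congr rfl fun k _ => by ring
        conv_rhs => rw [show gs u x * ga r x * (Real.exp (-(t * tau p u x) ^ 2 / r ^ 2) * tau p u x)
          = (gs u x * ga r x * Real.exp (-(t * tau p u x) ^ 2 / r ^ 2)) * tau p u x by ring]
        nth_rewrite 3 [this]
        rw [Finset.mul_sum]
        refine Finset.sum_congr rfl fun k _ => by ring
      have e3 : (∫ x, (psi u x / √2 * dd p u x) * ga r (x - t • p)) =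
          (∫ x, ∑ k, p k * (gs u x * nu u k x * ga r (x - t • p))) +
          ∫ x, ((psi u x / √2 - wn u x) * dd p u x) * ga r (x - t • p) := by
        rw [← integral_add (integrable_finset_sum _ fun k _ => (ia k).const_mul (p k)) ic]
        refine integral_congr_ae (Eventually.of_forall fun x => ?_)
        simp only
        have : ∑ k, p k * (gs u x * nu u k x * ga r (x - t • p))
            = wn u x * dd p u x * ga r (x - t • p) := by
          unfold dd
          rw [Finset.mul_sum, Finset.sum_mul]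
          refine Finset.sum_congr rfl fun k _ => ?_
          rw [gs_mul_nu (hg x)]; ring
        rw [this]; ring
      rw [e1, e2, e3]; ring
    rw [hsplit, Real.norm_eq_abs]
    refine (abs_add_le _ _).trans ?_
    have b1 : |∑ k, p k * ((∫ x, gs u x * nu u k x * ga r (x - t • p))
        - ∫ x, gs u x * nu u k x * (ga r x * Real.exp (-(tau (t • p) u x) ^ 2 / r ^ 2)))|
        ≤ n * (eno p * (C * E * ((eno p + esq p / r) * I1 + eno p / r ^ 2 * I2))) := by
      refine (Finset.abs_sum_le_sum_abs _ _).trans ?_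
      calc ∑ k, |p k * ((∫ x, gs u x * nu u k x * ga r (x - t • p))
            - ∫ x, gs u x * nu u k x * (ga r x * Real.exp (-(tau (t • p) u x) ^ 2 / r ^ 2)))|
          ≤ ∑ _k : Fin n, eno p * (C * E * ((eno p + esq p / r) * I1 + eno p / r ^ 2 * I2)) := by
            refine Finset.sum_le_sum fun k _ => ?_
            rw [abs_mul]
            exact mul_le_mul (abs_coord_le p k) (hTk k) (abs_nonneg _) hp0
        _ = _ := by simp
    have b2 : |∫ x, ((psi u x / √2 - wn u x) * dd p u x) * ga r (x - t • p)| ≤ eno p * E * I3 := by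
      have : eno p * E * I3 = ∫ x, eno p * E * (defi u x * ga (2 * r) x) := by
        rw [integral_const_mul]
      rw [this]
      refine abs_integral_le_integral_abs.trans ?_
      refine integral_mono_of_nonneg (Eventually.of_forall fun x => abs_nonneg _)
        ((defi_ga_integrable hu (by positivity)).const_mul _) (Eventually.of_forall fun x => ?_)
      simp only
      rw [abs_mul, abs_of_pos (ga_pos _ _)]
      have c1 := wn_mul_dd hu p x
      have c2 := ga_shift_le hr p hta x
      have c3 := hu.defi_nonneg x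
      calc |(psi u x / √2 - wn u x) * dd p u x| * ga r (x - t • p)
          ≤ (eno p * defi u x) * (E * ga (2 * r) x) :=
            mul_le_mul c1 c2 (ga_pos _ _).le (by positivity)
        _ = _ := by ring
    refine (add_le_add b1 b2).trans ?_
    have hA : 0 ≤ (eno p + esq p / r) * I1 + eno p / r ^ 2 * I2 := by positivity
    have hn : (0:ℝ) ≤ n := Nat.cast_nonneg n
    nlinarith [mul_nonneg (mul_nonneg hp0 hEp.le) hA, mul_nonneg (mul_nonneg hp0 hEp.le) hI3n,
      mul_nonneg (mul_nonneg hn hC.le) (mul_nonneg (mul_nonneg hp0 hEp.le) hI3n)]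
  have hfin := norm_image_sub_le_of_norm_deriv_le_segment_01' (f := fun t : ℝ => vP u r (t • p) - HP u r (t • p))
    (fun t _ => (hder t).hasDerivWithinAt) hbound
  simp only [one_smul, zero_smul] at hfin
  have hHP0 : HP u r 0 = 0 := by
    unfold HP
    have : ∀ x, gs u x * ga r x * Gr r (tau 0 u x) = 0 := by
      intro x
      have : tau (0 : Fin n → ℝ) u x = 0 := by unfold tau dd; simp
      rw [this, Gr_zero, mul_zero]
    simp_rw [this]; simp
  rw [hHP0, sub_zero, Real.norm_eq_abs] at hfin
  have e : vP u r p - vP u r 0 - HP u r p = vP u r p - HP u r p - vP u r 0 := by ring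
  rw [e]
  exact hfin

end Vale.Agent.P134.PLN
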